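import Crest.Agent.N49.Af.Pop

/-! Row 49, Af (helper95): dependent random choice on two scales; clusters over every point. -/

set_option autoImplicit false

open Finset

namespace Crest.Agent.N49.Af

open Classical in
/-- indicator of a proposition -/
noncomputable def I (p : Prop) : ℝ := if p then 1 else 0

theorem I_nn (p : Prop) : 0 ≤ I p := by unfold I; split_ifs <;> norm_num
theorem I_le (p : Prop) : I p ≤ 1 := by unfold I; split_ifs <;> norm_num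
theorem I_pos {p : Prop} (h : p) : I p = 1 := if_pos h
theorem I_neg {p : Prop} (h : ¬p) : I p = 0 := if_neg h
theorem I_mono {p q : Prop} (h : p → q) : I p ≤ I q := by
  by_cases a : p
  · rw [I_pos a, I_pos (h a)]
  · rw [I_neg a]; exact I_nn _
theorem I_and (p q : Prop) : I (p ∧ q) = I p * I q := by
  by_cases a : p <;> by_cases b : q <;> simp [I, a, b]

section
variable {X Y Z : Type*}

/-- sub-probability weight -/
structure W (s : Finset X) (w : X → ℝ) : Prop where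
  nn : ∀ x, 0 ≤ w x
  le : ∑ x ∈ s, w x ≤ 1

variable {s : Finset X} {w : X → ℝ}

theorem W.mono (h : W s w) {f g : X → ℝ} (k : ∀ x ∈ s, f x ≤ g x) :
    ∑ x ∈ s, w x * f x ≤ ∑ x ∈ s, w x * g x :=
  sum_le_sum fun x hx => mul_le_mul_of_nonneg_left (k x hx) (h.nn x)

theorem W.le_c (h : W s w) {f : X → ℝ} {c : ℝ} (hc : 0 ≤ c) (k : ∀ x ∈ s, f x ≤ c) :
    ∑ x ∈ s, w x * f x ≤ c :=
  (h.mono k).trans (by rw [← sum_mul]; exact mul_le_of_le_one_left hc h.le)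

theorem W.le_add (h : W s w) {f g : X → ℝ} {c : ℝ} (hc : 0 ≤ c) (k : ∀ x ∈ s, f x ≤ g x + c) :
    ∑ x ∈ s, w x * f x ≤ ∑ x ∈ s, w x * g x + c := by
  have := h.le_c (f := fun _ => c) hc fun _ _ => le_rfl
  have a := h.mono k
  simp only [mul_add, sum_add_distrib] at a
  linarith

theorem W.nn' (h : W s w) {f : X → ℝ} (k : ∀ x, 0 ≤ f x) : 0 ≤ ∑ x ∈ s, w x * f x :=
  sum_nonneg fun x _ => mul_nonneg (h.nn x) (k x)

theorem W.u (h : W s w) {f : X → ℝ} (k : ∀ x, 0 ≤ f x ∧ f x ≤ 1) :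
    0 ≤ ∑ x ∈ s, w x * f x ∧ ∑ x ∈ s, w x * f x ≤ 1 :=
  ⟨h.nn' fun x => (k x).1, h.le_c zero_le_one fun x _ => (k x).2⟩

theorem W.ex (h : W s w) {f : X → ℝ} {c : ℝ} (hc : 0 ≤ c) (k : c < ∑ x ∈ s, w x * f x) :
    ∃ x ∈ s, c < f x := by
  by_contra a
  push Not at a
  exact k.not_ge (h.le_c hc a)

theorem I_u (p : Prop) : 0 ≤ I p ∧ I p ≤ 1 := ⟨I_nn p, I_le p⟩

theorem u_mul {a b : ℝ} (h : 0 ≤ a ∧ a ≤ 1) (k : 0 ≤ b ∧ b ≤ 1) : 0 ≤ a * b ∧ a * b ≤ 1 :=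
  ⟨mul_nonneg h.1 k.1, mul_le_one₀ h.2 k.1 k.2⟩

theorem swap (s : Finset X) (w : X → ℝ) (t : Finset Y) (v : Y → ℝ) (f : X → Y → ℝ) :
    ∑ x ∈ s, w x * ∑ y ∈ t, v y * f x y = ∑ y ∈ t, v y * ∑ x ∈ s, w x * f x y := by
  simp only [mul_sum]
  rw [sum_comm]
  exact sum_congr rfl fun _ _ => sum_congr rfl fun _ _ => by ring

theorem sum_I (s : Finset X) (w : X → ℝ) (p : X → Prop) [DecidablePred p] :
    ∑ x ∈ s with p x, w x = ∑ x ∈ s, w x * I (p x) := by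
  rw [sum_filter]
  exact sum_congr rfl fun x _ => by unfold I; split_ifs <;> simp

/-- dependent random choice: all pairs of two dense sets are joined by many paths of length 3 -/
theorem paths {A : Finset X} {M : Finset Y} {B : Finset Z} {a : X → ℝ} {m : Y → ℝ} {b : Z → ℝ}
    (ha : W A a) (hm : W M m) (hb : W B b) (E₀ : X → Z → Prop) (E : Y → Z → Prop) {δ : ℝ}
    (h0 : 0 < δ) (h : δ ≤ ∑ u' ∈ B, b u' * ((∑ x ∈ A, a x * I (E₀ x u')) *
      ∑ t ∈ M, m t * (I (E t u') * ∑ u ∈ B, b u * I (E t u)))) :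
    ∃ A' ⊆ A, ∃ B' ⊆ B, δ / 4 ≤ ∑ x ∈ A', a x ∧ δ / 4 ≤ ∑ u ∈ B', b u ∧ ∀ x ∈ A', ∀ u ∈ B',
      δ ^ 3 / 320 ≤ ∑ t ∈ M, m t * ∑ u' ∈ B, b u' * I (E₀ x u' ∧ E t u' ∧ E t u) := by
  classical
  set θ := δ ^ 2 / 40 with hθ
  have θ0 : 0 < θ := by positivity
  set co : X → Y → ℝ := fun x t => ∑ u' ∈ B, b u' * I (E₀ x u' ∧ E t u') with hco
  set bad : Z → X → ℝ := fun u' x => ∑ t ∈ M, m t * I (E t u' ∧ co x t < θ) with hbad
  have bu : ∀ u' x, 0 ≤ bad u' x ∧ bad u' x ≤ 1 := fun _ _ => hm.u fun _ => I_u _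
  have eb : ∑ u' ∈ B, b u' * ∑ x ∈ A, a x * (I (E₀ x u') * bad u' x) ≤ θ := by
    rw [swap]
    refine ha.le_c θ0.le fun x _ => ?_
    have : ∀ u', I (E₀ x u') * bad u' x =
        ∑ t ∈ M, m t * (I (E₀ x u' ∧ E t u') * I (co x t < θ)) := fun u' => by
      rw [hbad, mul_sum]
      exact sum_congr rfl fun t _ => by simp only [I_and]; ring
    simp only [this]
    rw [swap]
    refine hm.le_c θ0.le fun t _ => ?_
    simp only [← mul_assoc]
    rw [← sum_mul]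
    by_cases c : co x t < θ
    · rw [I_pos c, mul_one]; exact c.le
    · rw [I_neg c, mul_zero]; exact θ0.le
  obtain ⟨u₀, -, k⟩ := hb.ex (c := δ / 2) (f := fun u' => (∑ x ∈ A, a x * I (E₀ x u')) *
      (∑ t ∈ M, m t * (I (E t u') * ∑ u ∈ B, b u * I (E t u))) -
      16 / δ * ∑ x ∈ A, a x * (I (E₀ x u') * bad u' x)) (by positivity) (by
    simp only [mul_sub, sum_sub_distrib]
    have e : ∑ u' ∈ B, b u' * (16 / δ * ∑ x ∈ A, a x * (I (E₀ x u') * bad u' x)) =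
        16 / δ * ∑ u' ∈ B, b u' * ∑ x ∈ A, a x * (I (E₀ x u') * bad u' x) := by
      rw [mul_sum]; exact sum_congr rfl fun _ _ => by ring
    have e2 : 16 / δ * θ = 2 / 5 * δ := by rw [hθ]; field_simp; ring
    have := mul_le_mul_of_nonneg_left eb (show 0 ≤ 16 / δ by positivity)
    linarith)
  set P := ∑ x ∈ A, a x * I (E₀ x u₀) with hP
  set Q := ∑ t ∈ M, m t * (I (E t u₀) * ∑ u ∈ B, b u * I (E t u)) with hQ
  set D := ∑ x ∈ A, a x * (I (E₀ x u₀) * bad u₀ x) with hD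
  have Pu : 0 ≤ P ∧ P ≤ 1 := ha.u fun _ => I_u _
  have Qu : 0 ≤ Q ∧ Q ≤ 1 := hm.u fun _ => u_mul (I_u _) (hb.u fun _ => I_u _)
  have D0 : 0 ≤ 16 / δ * D :=
    mul_nonneg (by positivity) (ha.nn' fun _ => mul_nonneg (I_nn _) (bu _ _).1)
  have PQ : P * Q ≤ P := mul_le_of_le_one_right Pu.1 Qu.2
  have QP : P * Q ≤ Q := mul_le_of_le_one_left Qu.1 Pu.2
  set dg : Z → ℝ := fun u => ∑ t ∈ M, m t * I (E t u₀ ∧ E t u) with hdg
  refine ⟨{x ∈ A | E₀ x u₀ ∧ bad u₀ x ≤ δ / 8}, filter_subset _ _, {u ∈ B | δ / 4 ≤ dg u},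
    filter_subset _ _, ?_, ?_, fun x hx u hu => ?_⟩
  · rw [sum_I]
    have : P ≤ ∑ x ∈ A, a x * (I (E₀ x u₀ ∧ bad u₀ x ≤ δ / 8) +
        8 / δ * (I (E₀ x u₀) * bad u₀ x)) := ha.mono fun x _ => by
      by_cases c : E₀ x u₀
      · by_cases c' : bad u₀ x ≤ δ / 8
        · rw [I_pos c, I_pos ⟨c, c'⟩]
          exact le_add_of_nonneg_right (mul_nonneg (by positivity) (by simpa using (bu _ _).1))
        · rw [I_pos c, I_neg fun h => c' h.2, zero_add, one_mul, div_mul_eq_mul_div,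
            le_div_iff₀ h0]
          linarith
      · rw [I_neg c]; simpa using I_nn _
    simp only [mul_add, sum_add_distrib] at this
    have e : ∑ x ∈ A, a x * (8 / δ * (I (E₀ x u₀) * bad u₀ x)) = 16 / δ * D / 2 := by
      rw [hD, mul_sum, sum_div]; exact sum_congr rfl fun _ _ => by ring
    linarith
  · rw [sum_I]
    have e : Q = ∑ u ∈ B, b u * dg u := by
      rw [hdg, swap]
      exact sum_congr rfl fun t _ => by
        rw [mul_sum (a := I _)]; congr 1; exact sum_congr rfl fun u _ => by rw [I_and]; ring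
    have := hb.le_add (f := dg) (g := fun u => I (δ / 4 ≤ dg u)) (c := δ / 4) (by positivity)
      fun u _ => by
        by_cases c : δ / 4 ≤ dg u
        · rw [I_pos c]; linarith [(hm.u (f := fun t => I (E t u₀ ∧ E t u)) fun _ => I_u _).2]
        · rw [I_neg c]; linarith
    linarith
  · obtain ⟨-, -, x2⟩ := mem_filter.1 hx
    have u2 := (mem_filter.1 hu).2
    have := hm.mono (f := fun t => θ * I (E t u₀ ∧ E t u) - θ * I (E t u₀ ∧ co x t < θ))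
      (g := fun t => ∑ u' ∈ B, b u' * I (E₀ x u' ∧ E t u' ∧ E t u)) fun t _ => by
        have n := hb.nn' (f := fun u' => I (E₀ x u' ∧ E t u' ∧ E t u)) fun _ => I_nn _
        by_cases c : E t u₀ ∧ E t u
        · by_cases c' : co x t < θ
          · rw [I_pos c, I_pos ⟨c.1, c'⟩]; linarith
          · rw [I_pos c, I_neg fun h => c' h.2]
            simp only [c.2, and_true]
            linarith [not_lt.1 c']
        · rw [I_neg c]; linarith [mul_nonneg θ0.le (I_nn (E t u₀ ∧ co x t < θ))]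
    have e : ∑ t ∈ M, m t * (θ * I (E t u₀ ∧ E t u) - θ * I (E t u₀ ∧ co x t < θ)) =
        θ * (dg u - bad u₀ x) := by
      rw [hdg, hbad, ← sum_sub_distrib, mul_sum]; exact sum_congr rfl fun _ _ => by ring
    rw [e] at this
    refine le_trans ?_ this
    calc δ ^ 3 / 320 = θ * (δ / 8) := by rw [hθ]; ring
      _ ≤ _ := mul_le_mul_of_nonneg_left (by linarith) θ0.le

/-- paths of length three in a dense bipartite graph -/
theorem p3 {M : Finset Y} {B : Finset Z} {m : Y → ℝ} {b : Z → ℝ} (hm : W M m) (hb : W B b)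
    (E : Y → Z → Prop) {δ : ℝ} (h0 : 0 < δ) (h : δ ≤ ∑ t ∈ M, m t * ∑ u ∈ B, b u * I (E t u)) :
    δ ^ 3 / 32 ≤ ∑ u' ∈ B, b u' * ((∑ s ∈ M, m s * I (E s u')) *
      ∑ t ∈ M, m t * (I (E t u') * ∑ u ∈ B, b u * I (E t u))) := by
  set D : Z → ℝ := fun u => ∑ s ∈ M, m s * I (E s u) with hD
  set G : Y → ℝ := fun t => ∑ u ∈ B, b u * I (E t u) with hG
  have D0 : ∀ u, 0 ≤ D u := fun _ => hm.nn' fun _ => I_nn _
  have G0 : ∀ t, 0 ≤ G t := fun _ => hb.nn' fun _ => I_nn _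
  have cut : ∀ r : ℝ, r * I (r < δ / 4) ≤ δ / 4 := fun r => by
    by_cases c : r < δ / 4
    · rw [I_pos c]; linarith
    · rw [I_neg c]; linarith
  have e1 : ∑ u ∈ B, b u * ∑ t ∈ M, m t * (I (E t u) * I (D u < δ / 4)) ≤ δ / 4 :=
    hb.le_c (by positivity) fun u _ => by
      simp only [← mul_assoc]; rw [← sum_mul]; exact cut _
  have e2 : ∑ u ∈ B, b u * ∑ t ∈ M, m t * (I (E t u) * I (G t < δ / 4)) ≤ δ / 4 := by
    rw [swap]
    exact hm.le_c (by positivity) fun u _ => by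
      simp only [← mul_assoc]; rw [← sum_mul]; exact cut _
  rw [swap] at h
  have := hb.mono (f := fun u => δ ^ 2 / 16 * (∑ t ∈ M, m t * I (E t u) -
      ∑ t ∈ M, m t * (I (E t u) * I (D u < δ / 4)) - ∑ t ∈ M, m t * (I (E t u) * I (G t < δ / 4))))
    (g := fun u => D u * ∑ t ∈ M, m t * (I (E t u) * G t)) fun u _ => by
      rw [← sum_sub_distrib, ← sum_sub_distrib, mul_sum, mul_sum]
      refine sum_le_sum fun t _ => ?_
      have n := mul_nonneg (hm.nn t) (I_nn (E t u))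
      have : δ ^ 2 / 16 * (1 - I (D u < δ / 4) - I (G t < δ / 4)) ≤ D u * G t := by
        have p := mul_nonneg (D0 u) (G0 t)
        by_cases c : D u < δ / 4
        · rw [I_pos c]; nlinarith [I_nn (G t < δ / 4), sq_nonneg δ]
        · by_cases c' : G t < δ / 4
          · rw [I_pos c', I_neg c]; linarith
          · rw [I_neg c', I_neg c]
            nlinarith [mul_le_mul (not_lt.1 c) (not_lt.1 c') (by positivity) (D0 u)]
      nlinarith [mul_le_mul_of_nonneg_left this n]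
  refine le_trans ?_ this
  have e : ∑ u ∈ B, b u * (δ ^ 2 / 16 * (∑ t ∈ M, m t * I (E t u) -
      ∑ t ∈ M, m t * (I (E t u) * I (D u < δ / 4)) - ∑ t ∈ M, m t * (I (E t u) * I (G t < δ / 4)))) =
      δ ^ 2 / 16 * (∑ u ∈ B, b u * ∑ t ∈ M, m t * I (E t u) -
      ∑ u ∈ B, b u * ∑ t ∈ M, m t * (I (E t u) * I (D u < δ / 4)) -
      ∑ u ∈ B, b u * ∑ t ∈ M, m t * (I (E t u) * I (G t < δ / 4))) := by
    rw [← sum_sub_distrib, ← sum_sub_distrib, mul_sum]; exact sum_congr rfl fun _ _ => by ring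
  rw [e]
  calc δ ^ 3 / 32 = δ ^ 2 / 16 * (δ / 2) := by ring
    _ ≤ _ := mul_le_mul_of_nonneg_left (by linarith) (by positivity)

end

variable {H Λ : Type*} [AddCommGroup H] [AddCommGroup Λ] {nm : H → ℝ} {A M B : Finset Λ}
  {a m b : Λ → ℝ} {δ η ε : ℝ}

/-- **clusters over every point** -/
theorem drc (hn : Nm nm) (ha : W A a) (hm : W M m) (hb : W B b) (ψ₀ β₀ ψ β α : Λ → H)
    (hs : ∀ z ∈ A, Sh M m z η ∧ Sh B b z η) (h0 : 0 < δ) (η0 : 0 ≤ η) (hη : η ≤ δ ^ 3 / 1000)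
    (h : δ ≤ ∑ u' ∈ B, b u' * ((∑ x ∈ A, a x * I (nm (ψ₀ (x + u') - β₀ x - α u') ≤ ε)) *
      ∑ t ∈ M, m t * (I (nm (ψ (t + u') - β t - α u') ≤ ε) *
        ∑ u ∈ B, b u * I (nm (ψ (t + u) - β t - α u) ≤ ε)))) :
    ∃ A' ⊆ A, ∃ B' ⊆ B, δ / 4 ≤ ∑ x ∈ A', a x ∧ δ / 4 ≤ ∑ u ∈ B', b u ∧ ∀ d,
      Cov nm {v | ∃ x ∈ A', ∃ y ∈ B', x + y = d ∧ v = β₀ x + α y} (1000 / δ ^ 3) (6 * ε) := by
  classical
  obtain ⟨A', a1, B', b1, a2, b2, k⟩ := paths ha hm hb _ _ h0 h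
  refine ⟨A', a1, B', b1, a2, b2, fun d => ?_⟩
  have := pop hn (M ×ˢ B) (fun p => m p.1 * b p.2) (fun _ => mul_nonneg (hm.nn _) (hb.nn _)) (by
      rw [sum_product]; simp only [← mul_sum]
      exact hm.le_c zero_le_one fun _ _ => hb.le)
    (fun v p => nm (v - (ψ₀ p.2 - ψ (p.2 + p.1) + ψ (d + p.1))) ≤ 3 * ε)
    {v | ∃ x ∈ A', ∃ y ∈ B', x + y = d ∧ v = β₀ x + α y} (θ := δ ^ 3 / 1000) (K := 1)
    (r := 3 * ε) (by positivity) zero_le_one ?_ fun _ _ => Cov.one _ _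
  · exact this.mono le_rfl (by rw [one_div_div]) (by linarith)
  rintro _ ⟨x, hx, y, hy, rfl, rfl⟩
  rw [sum_I, sum_product]
  simp only [mul_assoc, ← mul_sum]
  set f : Λ → Λ → ℝ := fun p q =>
    I (nm (β₀ x + α y - (ψ₀ q - ψ (q + p) + ψ (x + y + p))) ≤ 3 * ε) with hf
  have s1 := (hs x (a1 hx)).1.neg (fun p => ∑ q ∈ B, b q * f p q) fun p => hb.u fun _ => I_u _
  have s2 := hm.le_add (f := fun t => ∑ u' ∈ B, b u' * I (nm (ψ₀ (x + u') - β₀ x - α u') ≤ ε ∧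
      nm (ψ (t + u') - β t - α u') ≤ ε ∧ nm (ψ (t + y) - β t - α y) ≤ ε))
    (g := fun t => ∑ q ∈ B, b q * f (t + -x) q) η0 fun t _ => by
      refine le_trans (hb.mono fun u' _ => I_mono fun ⟨c1, c2, c3⟩ => ?_)
        ((hs x (a1 hx)).2 (f (t + -x)) fun _ => I_u _)
      rw [show u' + x + (t + -x) = t + u' by abel, show x + y + (t + -x) = t + y by abel,
        add_comm u' x, show β₀ x + α y - (ψ₀ (x + u') - ψ (t + u') + ψ (t + y)) =
          (ψ (t + u') - β t - α u') - (ψ₀ (x + u') - β₀ x - α u') - (ψ (t + y) - β t - α y) by abel]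
      linarith [hn.sub ((ψ (t + u') - β t - α u') - (ψ₀ (x + u') - β₀ x - α u'))
        (ψ (t + y) - β t - α y), hn.sub (ψ (t + u') - β t - α u') (ψ₀ (x + u') - β₀ x - α u')]
  have := k x hx y hy
  have := pow_pos h0 3
  linarith

/-- from an edge density to clusters on a narrow translate -/
theorem drc' (hn : Nm nm) (ha : W A a) (ha' : ∑ x ∈ A, a x = 1) (hm : W M m) (hb : W B b)
    (ψ β α : Λ → H) (hs : ∀ z ∈ A, Sh M m z η ∧ Sh B b z η) (h0 : 0 < δ) (h1 : δ ≤ 1) (η0 : 0 ≤ η)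
    (hη : η ≤ δ ^ 9 / 10 ^ 9)
    (h : δ ≤ ∑ t ∈ M, m t * ∑ u ∈ B, b u * I (nm (ψ (t + u) - β t - α u) ≤ ε)) :
    ∃ t₀ ∈ M, ∃ A' ⊆ A, ∃ B' ⊆ B, δ ^ 3 / 256 ≤ ∑ x ∈ A', a x ∧ δ ^ 3 / 256 ≤ ∑ u ∈ B', b u ∧ ∀ d,
      Cov nm {v | ∃ x ∈ A', ∃ y ∈ B', x + y = d ∧ v = β (t₀ + x) + α y} (10 ^ 9 / δ ^ 9)
        (6 * ε) := by
  have p := p3 hm hb _ h0 h
  set E : Λ → Λ → Prop := fun t u => nm (ψ (t + u) - β t - α u) ≤ ε with hE
  set V : Λ → ℝ := fun u' => ∑ t ∈ M, m t * (I (E t u') * ∑ u ∈ B, b u * I (E t u)) with hV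
  have Vu : ∀ u, 0 ≤ V u ∧ V u ≤ 1 := fun _ => hm.u fun _ => u_mul (I_u _) (hb.u fun _ => I_u _)
  set f : Λ → ℝ := fun s => ∑ u' ∈ B, b u' * (I (E s u') * V u') with hf
  have fu : ∀ s, 0 ≤ f s ∧ f s ≤ 1 := fun _ => hb.u fun _ => u_mul (I_u _) (Vu _)
  have e : ∑ u' ∈ B, b u' * ((∑ s ∈ M, m s * I (E s u')) * V u') = ∑ s ∈ M, m s * f s := by
    rw [hf, swap]; simp only [sum_mul, mul_assoc]
  have d3 := pow_pos h0 3
  have d9 : δ ^ 9 ≤ δ ^ 3 := pow_le_pow_of_le_one h0.le h1 (by norm_num)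
  have q := ha.le_add (f := fun _ => ∑ s ∈ M, m s * f s) η0 fun x hx => (hs x hx).1.ge f fu
  rw [← sum_mul, ha', one_mul, swap A] at q
  obtain ⟨t₀, ht, k⟩ := hm.ex (c := δ ^ 3 / 64) (f := fun s => ∑ x ∈ A, a x * f (s + x))
    (by positivity) (by change _ ≤ ∑ u' ∈ B, b u' * ((∑ s ∈ M, m s * I (E s u')) * V u') at p; linarith)
  obtain ⟨A', a1, B', b1, a2, b2, c⟩ := drc (δ := δ ^ 3 / 64) (ε := ε) hn ha hm hb
    (fun q => ψ (t₀ + q)) (fun x => β (t₀ + x)) ψ β α hs (by positivity) η0 (by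
      have := pow_pos h0 9
      rw [show (δ ^ 3 / 64) ^ 3 / 1000 = δ ^ 9 / 262144000 by ring]; linarith) (k.le.trans_eq (by
      rw [hf, swap]; simp only [sum_mul, mul_assoc, hE, add_assoc, hV]))
  refine ⟨t₀, ht, A', a1, B', b1, by linarith, by linarith, fun d => (c d).mono le_rfl ?_ le_rfl⟩
  rw [show (δ ^ 3 / 64) ^ 3 = δ ^ 9 / 262144 by ring, div_div_eq_mul_div]
  exact div_le_div_of_nonneg_right (by norm_num) (by positivity)

end Crest.Agent.N49.Af
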