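import Crest.Agent.N49.Af.Tst

/-! Row 49, Af (helper42): the popularity ladder; order-`k` defects lie in few clusters. -/

set_option autoImplicit false

open Finset
open scoped Pointwise

namespace Crest.Agent.N49.Af.Tt

variable {Λ H : Type*} [SeminormedAddCommGroup H]

open Classical in
/-- popular values are covered by few balls -/
theorem pack {ι : Type*} (I : Finset ι) (w : ι → ℝ) (hw : ∀ i, 0 ≤ w i) (h1 : ∑ i ∈ I, w i ≤ 1)
    (C : ι → Finset H) {K θ ρ : ℝ} (hK : 0 ≤ K) (hC : ∀ i, (#(C i) : ℝ) ≤ K) (hθ : 0 < θ)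
    (hρ : 0 ≤ ρ) : ∃ T : Finset H, (#T : ℝ) ≤ K / θ ∧
      ∀ v, θ ≤ ∑ i ∈ I with ∃ g ∈ C i, ‖v - g‖ ≤ ρ, w i → ∃ t ∈ T, ‖v - t‖ ≤ 2 * ρ := by
  let Ok : Finset H → Prop := fun T => (∀ v ∈ T, θ ≤ ∑ i ∈ I with ∃ g ∈ C i, ‖v - g‖ ≤ ρ, w i) ∧
    ∀ v ∈ T, ∀ v' ∈ T, ‖v - v'‖ ≤ 2 * ρ → v = v'
  have bd : ∀ T, Ok T → (#T : ℝ) ≤ K / θ := fun T hT => by
    have a1 := card_nsmul_le_sum T _ θ hT.1
    simp only [sum_filter] at a1
    rw [sum_comm, nsmul_eq_mul] at a1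
    rw [le_div_iff₀ hθ]
    refine a1.trans ((sum_le_sum fun i _ => ?_).trans
      ((mul_sum I w K).symm.trans_le (mul_le_of_le_one_right hK h1)))
    rw [← sum_filter, sum_const, nsmul_eq_mul]
    refine mul_le_mul_of_nonneg_right (le_trans (Nat.cast_le.2 ?_) (hC i)) (hw i)
    refine card_le_card_of_forall_subsingleton (fun v g => ‖v - g‖ ≤ ρ)
      (fun v hv => (mem_filter.1 hv).2) fun g _ v hv v' hv' => hT.2 v (mem_filter.1 hv.1).1 v'
        (mem_filter.1 hv'.1).1 ((norm_sub_le_norm_sub_add_norm_sub v g v').trans ?_)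
    rw [norm_sub_rev g, two_mul]
    exact add_le_add hv.2 hv'.2
  have hb : BddAbove {n | ∃ T, Ok T ∧ #T = n} :=
    ⟨⌈K / θ⌉₊, by rintro _ ⟨T, hT, rfl⟩; exact Nat.cast_le.1 ((bd T hT).trans (Nat.le_ceil _))⟩
  obtain ⟨T, hT, e⟩ := Nat.sSup_mem (s := {n | ∃ T, Ok T ∧ #T = n})
    ⟨0, ∅, ⟨by simp, by simp⟩, rfl⟩ hb
  refine ⟨T, bd T hT, fun v hv => ?_⟩
  by_contra! a
  have nv : v ∉ T := fun h => by have := a v h; rw [sub_self, norm_zero] at this; linarith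
  have := le_csSup hb ⟨insert v T, ⟨forall_mem_insert _ _ _ |>.2 ⟨hv, hT.1⟩, fun x hx y hy l => by
    rcases mem_insert.1 hx with rfl | hx' <;> rcases mem_insert.1 hy with rfl | hy'
    · rfl
    · exact absurd l (not_le.2 (a _ hy'))
    · exact absurd ((norm_sub_rev _ _).trans_le l) (not_le.2 (a _ hx'))
    · exact hT.2 x hx' y hy' l⟩, rfl⟩
  rw [card_insert_of_notMem nv, ← e] at this
  omega

variable [AddCommGroup Λ]

open Classical in
/-- mass of a predicate -/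
noncomputable def ms (U : Finset Λ) (β : Λ → ℝ) (P : Λ → Prop) : ℝ := ∑ y ∈ U with P y, β y

/-- data of the ladder: narrow law `α` on `A`, wide law `β` on `U`, `η`-invariant under `A` -/
structure Ld (A U : Finset Λ) (α β : Λ → ℝ) (η : ℝ) : Prop where
  a0 : ∀ a, 0 ≤ α a
  a1 : ∑ a ∈ A, α a ≤ 1
  b0 : ∀ y, 0 ≤ β y
  b1 : ∑ y ∈ U, β y ≤ 1
  e0 : 0 ≤ η
  qi : ∀ a ∈ A, ∀ P : Λ → Prop, ms U β (fun y => P (y + a)) ≤ ms U β P + η

/-- `graph ψ + S ⊆ G + ball r` -/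
def Cv (A : Finset Λ) (ψ : Λ → H) (S G : Λ → Finset H) (r : ℝ) : Prop :=
  ∀ a ∈ A, ∀ y, ∀ s ∈ S y, ∃ c ∈ G (y + a), ‖ψ a + s - c‖ ≤ r

variable {A U : Finset Λ} {α β : Λ → ℝ} {η : ℝ} {ψ : Λ → H}

omit [AddCommGroup Λ] in
theorem ms_mono (h : ∀ y, 0 ≤ β y) {P Q : Λ → Prop} (e : ∀ y, P y → Q y) :
    ms U β P ≤ ms U β Q := by
  classical
  unfold ms
  exact sum_le_sum_of_subset_of_nonneg (fun y hy => mem_filter.2
    ⟨(mem_filter.1 hy).1, e _ (mem_filter.1 hy).2⟩) fun y _ _ => h y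

omit [AddCommGroup Λ] in
theorem ms_or (h : ∀ y, 0 ≤ β y) (P Q : Λ → Prop) :
    ms U β (fun y => P y ∨ Q y) ≤ ms U β P + ms U β Q := by
  unfold ms
  simp only [sum_filter, ← sum_add_distrib]
  refine sum_le_sum fun y _ => ?_
  have := h y
  by_cases p : P y <;> by_cases q : Q y <;> simp [p, q, this]

theorem Ld.shift (h : Ld A U α β η) {j : ℕ} (u : Fin j → Λ) (hu : ∀ i, u i ∈ A) (P : Λ → Prop) :
    ms U β (fun y => P (y + ∑ i, u i)) ≤ ms U β P + j * η := by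
  induction j generalizing P with
  | zero => simp
  | succ j ih =>
    have := ih (fun i => u i.castSucc) (fun i => hu _) fun y => P (y + u (Fin.last j))
    have := h.qi _ (hu (Fin.last j)) P
    simp only [Fin.sum_univ_castSucc, ← add_assoc]
    push_cast
    linarith

/-- one rung -/
theorem Ld.rung (h : Ld A U α β η) {S G : Λ → Finset H} {r K τ l : ℝ} (hc : Cv A ψ S G r)
    (hr : 0 ≤ r) (hK : 0 < K) (hG : ∀ y, (#(G y) : ℝ) ≤ K) (hτ : 0 < τ) (hl : 0 < l) :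
    ∃ S' G' : Λ → Finset H, ∃ D ⊆ A, Cv A ψ S' G' (4 * r) ∧ (∀ y, (#(S' y) : ℝ) ≤ K) ∧
      (∀ y, (#(G' y) : ℝ) ≤ K ^ 2 / τ) ∧ ∑ a ∈ D, α a ≤ (τ + η) / l ∧ ∀ a ∈ A, a ∉ D →
        ms U β (fun y => ¬∀ s ∈ S y, ∃ c ∈ S' (y + a), ‖ψ a + s - c‖ ≤ r) ≤ l := by
  classical
  have θ0 : 0 < τ / K := div_pos hτ hK
  let p : Λ → H → ℝ := fun e c => ∑ a ∈ A with ∃ s ∈ S (e - a), ‖ψ a + s - c‖ ≤ r, α a
  let S' : Λ → Finset H := fun e => {c ∈ G e | τ / K ≤ p e c}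
  choose G' g1 g2 using fun e => pack A α h.a0 h.a1 (fun a => (G (e - a)).image (ψ a + ·)) hK.le
    (fun a => (Nat.cast_le.2 card_image_le).trans (hG _)) θ0 (ρ := 2 * r) (by positivity)
  let b : Λ → ℝ := fun a => ms U β fun y => ¬∀ s ∈ S y, ∃ c ∈ S' (y + a), ‖ψ a + s - c‖ ≤ r
  refine ⟨S', G', {a ∈ A | l < b a}, filter_subset _ _, fun a' ha' d c hc' => ?_,
    fun y => (Nat.cast_le.2 (card_filter_le _ _)).trans (hG y),
    fun y => (g1 y).trans_eq (by field_simp), ?_,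
    fun a ha hD => not_lt.1 fun e => hD (mem_filter.2 ⟨ha, e⟩)⟩
  · rw [show 4 * r = 2 * (2 * r) by ring]
    refine g2 _ _ ((mem_filter.1 hc').2.trans (sum_le_sum_of_subset_of_nonneg (fun a ha => ?_)
      fun a _ _ => h.a0 a))
    obtain ⟨ha, s, hs, e⟩ := mem_filter.1 ha
    obtain ⟨g, hg, e'⟩ := hc a' ha' _ s hs
    refine mem_filter.2 ⟨ha, _, mem_image_of_mem _ (by rwa [← sub_add_eq_add_sub]), ?_⟩
    rw [show ψ a' + c - (ψ a + g) = (ψ a' + s - g) - (ψ a + s - c) by abel, two_mul]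
    exact (norm_sub_le _ _).trans (add_le_add e' e)
  · let Q : Λ → Λ → Prop := fun a e => ∃ c ∈ G e, ¬τ / K ≤ p e c ∧
      ∃ s ∈ S (e - a), ‖ψ a + s - c‖ ≤ r
    have b1 : ∀ a ∈ A, b a ≤ ms U β (Q a) + η := fun a ha =>
      (ms_mono h.b0 fun y hy => by
        push Not at hy
        obtain ⟨s, hs, hy⟩ := hy
        obtain ⟨c, hc, e⟩ := hc a ha y s hs
        exact ⟨c, hc, fun hp => absurd e (not_le.2 (hy c (mem_filter.2 ⟨hc, hp⟩))), s,
          by rwa [add_sub_cancel_right], e⟩).trans (h.qi a ha (Q a))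
    have b2 : ∀ e, ∑ a ∈ A with Q a e, α a ≤ τ := fun e => by
      calc _ ≤ ∑ a ∈ A, ∑ c ∈ G e with ¬τ / K ≤ p e c,
            if ∃ s ∈ S (e - a), ‖ψ a + s - c‖ ≤ r then α a else 0 := by
            rw [sum_filter]
            refine sum_le_sum fun a _ => ?_
            have n0 : ∀ c ∈ ({c ∈ G e | ¬τ / K ≤ p e c} : Finset H), 0 ≤
                if ∃ s ∈ S (e - a), ‖ψ a + s - c‖ ≤ r then α a else 0 := fun c _ => by
              split_ifs; exacts [h.a0 a, le_rfl]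
            split_ifs with q
            · obtain ⟨c, c1, c2, c3⟩ := q
              exact (if_pos c3).ge.trans (single_le_sum n0 (mem_filter.2 ⟨c1, c2⟩))
            · exact sum_nonneg n0
        _ ≤ #{c ∈ G e | ¬τ / K ≤ p e c} • (τ / K) := by
            rw [sum_comm]
            refine sum_le_card_nsmul _ _ _ fun c hc => ?_
            rw [← sum_filter]
            exact (not_le.1 (mem_filter.1 hc).2).le
        _ ≤ K * (τ / K) := by
            rw [nsmul_eq_mul]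
            exact mul_le_mul_of_nonneg_right
              ((Nat.cast_le.2 (card_filter_le _ _)).trans (hG e)) θ0.le
        _ = τ := by field_simp
    have b3 : ∑ a ∈ A, α a * ms U β (Q a) ≤ τ := by
      calc _ = ∑ e ∈ U, β e * ∑ a ∈ A with Q a e, α a := by
            simp only [ms, sum_filter, mul_sum]
            rw [sum_comm]
            exact sum_congr rfl fun e _ => sum_congr rfl fun a _ => by split_ifs <;> ring
        _ ≤ ∑ e ∈ U, β e * τ := sum_le_sum fun e _ => mul_le_mul_of_nonneg_left (b2 e) (h.b0 e)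
        _ ≤ τ := by rw [← sum_mul]; exact mul_le_of_le_one_left hτ.le h.b1
    rw [le_div_iff₀ hl, sum_mul]
    calc _ ≤ ∑ a ∈ A with l < b a, α a * b a := sum_le_sum fun a ha =>
          mul_le_mul_of_nonneg_left (mem_filter.1 ha).2.le (h.a0 a)
      _ ≤ ∑ a ∈ A, α a * b a := sum_le_sum_of_subset_of_nonneg (filter_subset _ _) fun a _ _ =>
          mul_nonneg (h.a0 a) (sum_nonneg fun y _ => h.b0 y)
      _ ≤ ∑ a ∈ A, α a * (ms U β (Q a) + η) := sum_le_sum fun a ha =>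
          mul_le_mul_of_nonneg_left (b1 a ha) (h.a0 a)
      _ ≤ τ + η := by
          simp only [mul_add, sum_add_distrib, ← sum_mul]
          exact add_le_add b3 (mul_le_of_le_one_left h.e0 h.a1)

/-- the ladder -/
theorem Ld.ladder (h : Ld A U α β η) {B : Set Λ} {φ : Λ → H} {G : Λ → Finset H} {r K τ l : ℝ}
    (hc : ∀ a ∈ A, ∀ y ∈ B, ∃ c ∈ G (y + a), ‖ψ a + φ y - c‖ ≤ r) (hr : 0 ≤ r) (hK : 1 ≤ K)
    (hG : ∀ y, (#(G y) : ℝ) ≤ K) (hτ : 0 < τ) (hτ' : τ ≤ 1) (hl : 0 < l) (j : ℕ) :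
    ∃ S' G' : Λ → Finset H, ∃ D ⊆ A, Cv A ψ S' G' (4 ^ j * r) ∧
      (∀ y, (#(S' y) : ℝ) ≤ τ * (K / τ) ^ 2 ^ j) ∧ (∀ y, (#(G' y) : ℝ) ≤ τ * (K / τ) ^ 2 ^ j) ∧
      ∑ a ∈ D, α a ≤ j * ((τ + η) / l) ∧ ∀ u : Fin j → Λ, (∀ i, u i ∈ A ∧ u i ∉ D) →
        ms U β (fun x => x ∈ B ∧ ¬∃ s ∈ S' (x + ∑ i, u i),
          ‖φ x + ∑ i, ψ (u i) - s‖ ≤ (4 ^ j - 1) * r) ≤ j * (l + j * η) := by
  classical
  induction j with
  | zero =>
    have e : τ * (K / τ) ^ 2 ^ 0 = K := by simp only [pow_zero, pow_one]; field_simp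
    refine ⟨fun y => if y ∈ B then {φ y} else ∅, G, ∅, empty_subset _, fun a ha y s hs => ?_,
      fun y => ?_, fun y => (hG y).trans e.ge, by simp, fun u _ => ?_⟩
    · beta_reduce at hs
      split_ifs at hs with hy
      · rw [mem_singleton.1 hs, pow_zero, one_mul]; exact hc a ha y hy
      · exact absurd hs (notMem_empty _)
    · rw [e]; beta_reduce; split_ifs <;> simp <;> linarith
    · refine (ms_mono h.b0 (Q := fun _ => False) fun x hx => hx.2 ⟨φ x, ?_, ?_⟩).trans (by simp [ms])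
      · simp [hx.1]
      · simp
  | succ j ih =>
    obtain ⟨S, G₁, D, d, c, -, g, m, ch⟩ := ih
    have k1 : 1 ≤ K / τ := (one_le_div hτ).2 (hτ'.trans hK)
    obtain ⟨S', G', D', d', c', s', g', m', ch'⟩ := h.rung c (by positivity) (by positivity) g hτ hl
    refine ⟨S', G', D ∪ D', union_subset d d', by rwa [pow_succ', mul_assoc],
      fun y => (s' y).trans (mul_le_mul_of_nonneg_left (pow_le_pow_right₀ k1
        (Nat.pow_le_pow_right two_pos j.le_succ)) hτ.le),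
      fun y => (g' y).trans_eq (by rw [pow_succ 2 j, pow_mul]; field_simp), ?_, fun u hu => ?_⟩
    · have := sum_union_inter (s₁ := D) (s₂ := D') (f := α)
      have := sum_nonneg fun a (_ : a ∈ D ∩ D') => h.a0 a
      push_cast; linarith
    · have a1 := ch (fun i => u i.castSucc) fun i =>
        ⟨(hu _).1, fun e => (hu _).2 (mem_union_left _ e)⟩
      have a2 := (h.shift (fun i => u i.castSucc) (fun i => (hu _).1) _).trans (add_le_add_left
        (ch' _ (hu (Fin.last j)).1 fun e => (hu _).2 (mem_union_right _ e)) _)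
      refine ((ms_mono h.b0 fun x hx => ?_).trans (ms_or h.b0 _ _)).trans
        ((add_le_add a1 a2).trans ?_)
      · by_contra n
        obtain ⟨n1, n2⟩ := not_or.1 n
        obtain ⟨s, hs, e⟩ := not_not.1 fun e => n1 ⟨hx.1, e⟩
        obtain ⟨c, hc, e'⟩ := not_not.1 n2 s hs
        refine hx.2 ⟨c, by rwa [Fin.sum_univ_castSucc, ← add_assoc], ?_⟩
        rw [Fin.sum_univ_castSucc, show φ x + (∑ i : Fin j, ψ (u i.castSucc) + ψ (u (Fin.last j))) - c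
          = (φ x + ∑ i : Fin j, ψ (u i.castSucc) - s) + (ψ (u (Fin.last j)) + s - c) by abel]
        refine (norm_add_le _ _).trans ((add_le_add e e').trans ?_)
        have : (0 : ℝ) ≤ 4 ^ j * r := by positivity
        rw [pow_succ]; linarith
      · have := h.e0
        have : (0 : ℝ) ≤ j * η := by positivity
        push_cast; nlinarith

/-- **ladder**: the order-`k` defects of `ψ` on most of `A` lie in few clusters -/
theorem Ld.clusters (h : Ld A U α β η) {B : Set Λ} {φ : Λ → H} {G : Λ → Finset H} {r K τ l b : ℝ}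
    (hc : ∀ a ∈ A, ∀ y ∈ B, ∃ c ∈ G (y + a), ‖ψ a + φ y - c‖ ≤ r) (hr : 0 ≤ r) (hK : 1 ≤ K)
    (hG : ∀ y, (#(G y) : ℝ) ≤ K) (hτ : 0 < τ) (hτ' : τ ≤ 1) (hl : 0 < l) (k : ℕ) (hb : 0 < b)
    (hB : b + 2 * (k * (l + k * η)) + k * η ≤ ms U β (· ∈ B)) :
    ∃ A' ⊆ A, ∑ a ∈ A, α a ≤ ∑ a ∈ A', α a + k * ((τ + η) / l) ∧ ∃ T : Finset H,
      (#T : ℝ) ≤ (K / τ) ^ 2 ^ (k + 1) / b ∧
      Cl (fun u v : Fin k → Λ => ∑ i, u i = ∑ i, v i) A' ψ {v | ‖v‖ ≤ 4 ^ (k + 1) * r} T := by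
  classical
  obtain ⟨S, -, D, d, -, s, -, m, ch⟩ := h.ladder hc hr hK hG hτ hτ' hl k
  have r0 : 0 ≤ (4 ^ k - 1) * r := mul_nonneg (sub_nonneg.2 (one_le_pow₀ (by norm_num))) hr
  obtain ⟨T, t1, t2⟩ := pack U β h.b0 h.b1 (fun e => S e - S e) (K := (K / τ) ^ 2 ^ (k + 1))
    (by positivity) (fun e => by
      have a : (#(S e) : ℝ) ≤ (K / τ) ^ 2 ^ k :=
        (s e).trans (mul_le_of_le_one_left (by positivity) hτ')
      rw [pow_succ 2 k, pow_mul, sq]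
      exact (Nat.cast_le.2 card_sub_le).trans (by push_cast; gcongr)) hb
    (ρ := 2 * ((4 ^ k - 1) * r)) (by positivity)
  refine ⟨A \ D, sdiff_subset, by rw [← sum_sdiff d]; linarith, T, t1, fun u v hu hv e => ?_⟩
  have a1 := ch u fun i => mem_sdiff.1 (hu i)
  have a2 := ch v fun i => mem_sdiff.1 (hv i)
  have a3 := h.shift u (fun i => (mem_sdiff.1 (hu i)).1) fun e =>
    ∃ g ∈ S e - S e, ‖∑ i, ψ (u i) - ∑ i, ψ (v i) - g‖ ≤ 2 * ((4 ^ k - 1) * r)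
  have a4 := (ms_mono (U := U) h.b0 (P := (· ∈ B)) fun x hx => ?_).trans ((ms_or h.b0 _ _).trans
    (add_le_add ((ms_or h.b0 _ _).trans (add_le_add a1 a2)) a3))
  · obtain ⟨t, ht, e⟩ := t2 (∑ i, ψ (u i) - ∑ i, ψ (v i)) (by
      refine le_trans ?_ (le_of_eq (by unfold ms; congr : ms U β (fun e => ∃ g ∈ S e - S e,
        ‖∑ i, ψ (u i) - ∑ i, ψ (v i) - g‖ ≤ 2 * ((4 ^ k - 1) * r)) = _))
      linarith)
    exact ⟨t, ht, e.trans (by rw [pow_succ]; linarith)⟩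
  · by_contra n
    obtain ⟨n1, n3⟩ := not_or.1 n
    obtain ⟨n1, n2⟩ := not_or.1 n1
    obtain ⟨s₁, h₁, e₁⟩ := not_not.1 fun e => n1 ⟨hx, e⟩
    obtain ⟨s₂, h₂, e₂⟩ := not_not.1 fun e => n2 ⟨hx, e⟩
    refine n3 ⟨_, sub_mem_sub h₁ (e ▸ h₂), ?_⟩
    rw [show ∑ i, ψ (u i) - ∑ i, ψ (v i) - (s₁ - s₂) =
      (φ x + ∑ i, ψ (u i) - s₁) - (φ x + ∑ i, ψ (v i) - s₂) by abel, two_mul]
    exact (norm_sub_le _ _).trans (add_le_add e₁ e₂)

end Crest.Agent.N49.Af.Tt
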