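import Crest.Agent.N49.Af.Laf0
import Crest.Agent.N49.Af.Drc

/-! Row 49, Af (helper42): the rank-free approximate Freiman theorem `laf`. -/

set_option autoImplicit false

open Finset

namespace Crest.Agent.N49.Af.Tt

/-- **rank-free approximate Freiman theorem** -/
theorem laf (k : ℕ) : ∃ C : ℕ, ∀ {Λ H : Type} [SeminormedAddCommGroup H] [AddCommGroup Λ]
    {A M B : Finset Λ} {a m b : Λ → ℝ} {η ε R : ℝ} (ψ β α : Λ → H) (n : ℕ), 1 ≤ n →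
    W A a → ∑ x ∈ A, a x = 1 → W M m → W B b → (∀ z ∈ A, Sh M m z η ∧ Sh B b z η) → 0 ≤ η →
    2 ^ (C * n) * η ≤ 1 → 0 ≤ ε →
    1 ≤ 2 ^ n * ∑ t ∈ M, m t * ∑ u ∈ B, b u * I (‖ψ (t + u) - β t - α u‖ ≤ ε) →
    Ts {v : H | ‖v‖ ≤ 4 ^ (k + 1) * (6 * ε)} {v | ‖v‖ ≤ R} →
    ∃ t₀ ∈ M, ∃ A' ⊆ A, 1 ≤ 2 ^ (C * n) * ∑ x ∈ A', a x ∧
      AF k A' (fun x => β (t₀ + x)) (R + 4 ^ (k + 1) * (6 * ε)) := by
  obtain ⟨C, hC⟩ := laf1 k
  refine ⟨(C + 1) * 39, fun {Λ H} _ _ A M B a m b η ε R ψ β α n hn ha a1 hm hb hs η0 hη ε0 h hT => ?_⟩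
  have p : ∀ {i j : ℕ}, i ≤ j → (2 : ℝ) ^ i ≤ 2 ^ j := pow_le_pow_right₀ one_le_two
  have n0 : (0 : ℝ) < 2 ^ n := by positivity
  have e1 : (10 : ℝ) ^ 9 / (2 ^ n)⁻¹ ^ 9 ≤ 2 ^ (39 * n) := by
    rw [inv_pow, div_inv_eq_mul, ← pow_mul, show 39 * n = 30 * n + n * 9 by ring, pow_add]
    exact mul_le_mul_of_nonneg_right (le_trans (by norm_num) (p (by omega : 30 ≤ 30 * n)))
      (by positivity)
  have e2 : ∀ s : ℝ, (2 ^ n)⁻¹ ^ 3 / 256 ≤ s → 1 ≤ 2 ^ (39 * n) * s := fun s hs => by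
    refine le_trans ?_ (mul_le_mul_of_nonneg_left hs (by positivity))
    rw [inv_pow, ← pow_mul, mul_div_assoc', le_div_iff₀ (by norm_num), ← div_eq_mul_inv,
      le_div_iff₀ (by positivity), show (1 * 256 : ℝ) = 2 ^ 8 by norm_num, ← pow_add]
    exact p (by omega)
  obtain ⟨t₀, ht, A₁, s₁, B₁, s₂, d₁, d₂, c⟩ := drc' (nm := fun v : H => ‖v‖) (δ := (2 ^ n)⁻¹)
    ⟨norm_add_le, norm_neg⟩ ha a1 hm hb ψ β α hs (inv_pos.2 n0)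
    (inv_le_one_of_one_le₀ (one_le_pow₀ one_le_two)) η0 (by
      rw [← inv_div, ← one_div, le_div_iff₀' (by positivity)]
      exact (mul_le_mul_of_nonneg_right (e1.trans (p (by nlinarith))) η0).trans hη)
    ((inv_le_iff_one_le_mul₀' n0).2 h)
  obtain ⟨A', s, m', f⟩ := hC (A := A₁) (B := B) (B' := B₁) (a := a) (b := b) (η := η) (R := R)
    (ψ := fun x => β (t₀ + x)) (φ := α) (39 * n) (by omega) ha.nn hb.nn
    ((sum_le_sum_of_subset_of_nonneg s₁ fun x _ _ => ha.nn x).trans ha.le) hb.le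
    (fun z hz => (hs z (s₁ hz)).2) s₂ (e2 _ d₁) (e2 _ d₂) (by positivity : 0 ≤ 6 * ε)
    ((mul_le_mul_of_nonneg_right (p (by nlinarith)) η0).trans hη) (fun d => by
      obtain ⟨T, t1, t2⟩ := c d
      exact ⟨T, t1.trans e1, fun x hx y hy e => t2 _ ⟨x, hx, y, hy, e, rfl⟩⟩) hT
  exact ⟨t₀, ht, A', s.trans s₁, m'.trans (mul_le_mul_of_nonneg_right (p (by nlinarith))
    (sum_nonneg fun x _ => ha.nn x)), f⟩

end Crest.Agent.N49.Af.Tt
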