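import Mathlib

/-! Row 49, Af (helper95): sizes, covers, shift invariance, popular values. -/

set_option autoImplicit false

open Finset

namespace Crest.Agent.N49.Af

variable {H Λ Ω : Type*} [AddCommGroup H] [AddCommGroup Λ]

/-- a size on an abelian group -/
structure Nm (nm : H → ℝ) : Prop where
  add : ∀ v w, nm (v + w) ≤ nm v + nm w
  neg : ∀ v, nm (-v) = nm v

/-- `Y` is covered by at most `K` balls of radius `r` -/
def Cov (nm : H → ℝ) (Y : Set H) (K r : ℝ) : Prop :=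
  ∃ C : Finset H, (#C : ℝ) ≤ K ∧ ∀ y ∈ Y, ∃ c ∈ C, nm (y - c) ≤ r

/-- the weight `w` on `s` is `η`-invariant under the shift by `z` -/
def Sh (s : Finset Λ) (w : Λ → ℝ) (z : Λ) (η : ℝ) : Prop := ∀ f : Λ → ℝ,
  (∀ x, 0 ≤ f x ∧ f x ≤ 1) → ∑ x ∈ s, w x * f (x + z) ≤ ∑ x ∈ s, w x * f x + η

variable {nm : H → ℝ} {s : Finset Λ} {w : Λ → ℝ} {z z' : Λ} {η η' : ℝ}

theorem Nm.sub (h : Nm nm) (v u : H) : nm (v - u) ≤ nm v + nm u := by
  rw [sub_eq_add_neg, ← h.neg u]; exact h.add _ _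

theorem Nm.tri (h : Nm nm) (u v t : H) : nm (u - t) ≤ nm (u - v) + nm (v - t) := by
  simpa using h.add (u - v) (v - t)

theorem Nm.comm (h : Nm nm) (u v : H) : nm (u - v) = nm (v - u) := by rw [← h.neg, neg_sub]

theorem Sh.ge (h : Sh s w z η) (f : Λ → ℝ) (hf : ∀ x, 0 ≤ f x ∧ f x ≤ 1) :
    ∑ x ∈ s, w x * f x ≤ ∑ x ∈ s, w x * f (x + z) + η := by
  have := h (fun x => 1 - f x) fun x => ⟨by linarith [(hf x).2], by linarith [(hf x).1]⟩
  simp only [mul_sub, sum_sub_distrib] at this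
  linarith

theorem Sh.neg (h : Sh s w z η) : Sh s w (-z) η := fun f hf => by
  simpa using h.ge (fun x => f (x + -z)) fun x => hf _

theorem Sh.add (h : Sh s w z η) (k : Sh s w z' η') : Sh s w (z + z') (η + η') := fun f hf => by
  have a := h (fun x => f (x + z')) fun x => hf _
  have b := k f hf
  simp only [add_assoc] at a
  linarith

theorem Sh.zero : Sh s w 0 0 := fun f _ => by simp

theorem Sh.mono (h : Sh s w z η) (k : η ≤ η') : Sh s w z η' := fun f hf =>
  (h f hf).trans (by linarith)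

theorem Sh.sum {ι : Type*} (t : Finset ι) (g : ι → Λ) (h : ∀ i ∈ t, Sh s w (g i) η) :
    Sh s w (∑ i ∈ t, g i) (#t * η) := by
  classical
  induction t using Finset.induction_on with
  | empty => simpa using Sh.zero
  | insert i t hi ih =>
    rw [sum_insert hi, card_insert_of_notMem hi]
    exact ((h i (mem_insert_self _ _)).add (ih fun j hj => h j (mem_insert_of_mem hj))).mono
      (by push_cast; linarith)

theorem Cov.mono {Y Y' : Set H} {K K' r r' : ℝ} (h : Cov nm Y K r) (a : Y' ⊆ Y) (b : K ≤ K')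
    (c : r ≤ r') : Cov nm Y' K' r' :=
  let ⟨C, h1, h2⟩ := h
  ⟨C, h1.trans b, fun y hy => let ⟨x, d, e⟩ := h2 y (a hy); ⟨x, d, e.trans c⟩⟩

theorem Cov.one (c : H) (r : ℝ) : Cov nm {y | nm (y - c) ≤ r} 1 r :=
  ⟨{c}, by simp, fun _ hy => ⟨c, mem_singleton_self _, hy⟩⟩

open Classical in
/-- **popular values**: if every point of `Y` is seen by a set of weight `θ` and every `ω` sees
only `K` balls, then `Y` is covered by `K / θ` balls of the double radius -/
theorem pop (hn : Nm nm) (t : Finset Ω) (p : Ω → ℝ) (hp : ∀ x, 0 ≤ p x) (h1 : ∑ x ∈ t, p x ≤ 1)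
    (R : H → Ω → Prop) (Y : Set H) {θ K r : ℝ} (hθ : 0 < θ) (hK : 0 ≤ K)
    (hY : ∀ y ∈ Y, θ ≤ ∑ x ∈ t with R y x, p x) (hC : ∀ x ∈ t, Cov nm {y | R y x} K r) :
    Cov nm Y (K / θ) (2 * r) := by
  have cl : ∀ {y y' c : H}, nm (y - c) ≤ r → nm (y' - c) ≤ r → nm (y - y') ≤ 2 * r :=
    fun {y y' c} a b => by linarith [hn.tri y c y', hn.comm c y']
  have bd : ∀ S : Finset H, (∀ y ∈ S, y ∈ Y) → (∀ y ∈ S, ∀ y' ∈ S, y ≠ y' → 2 * r < nm (y - y')) →
      (#S : ℝ) ≤ K / θ := fun S a b => by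
    rw [le_div_iff₀ hθ]
    calc (#S : ℝ) * θ = ∑ _y ∈ S, θ := by simp
      _ ≤ ∑ y ∈ S, ∑ x ∈ t with R y x, p x := sum_le_sum fun y hy => hY y (a y hy)
      _ = ∑ x ∈ t, (#{y ∈ S | R y x} : ℝ) * p x := by
        simp only [sum_filter]
        rw [sum_comm]
        exact sum_congr rfl fun x _ => by rw [← sum_filter]; simp
      _ ≤ ∑ x ∈ t, K * p x := sum_le_sum fun x hx => mul_le_mul_of_nonneg_right (by
        obtain ⟨C, c1, c2⟩ := hC x hx
        choose! g g1 g2 using c2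
        refine le_trans (Nat.cast_le.2 (card_le_card_of_injOn g (fun y hy =>
          g1 y (mem_filter.1 hy).2) fun y hy y' hy' e => ?_)) c1
        by_contra ne
        have hy := mem_filter.1 hy
        have hy' := mem_filter.1 hy'
        exact (b y hy.1 y' hy'.1 ne).not_ge (cl (g2 y hy.2) (e ▸ g2 y' hy'.2))) (hp x)
      _ ≤ K := by rw [← mul_sum]; exact mul_le_of_le_one_right hK h1
  by_contra c
  have all : ∀ n : ℕ, ∃ S : Finset H, (∀ y ∈ S, y ∈ Y) ∧
      (∀ y ∈ S, ∀ y' ∈ S, y ≠ y' → 2 * r < nm (y - y')) ∧ #S = n := fun n => by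
    induction n with
    | zero => exact ⟨∅, by simp, by simp, rfl⟩
    | succ n ih =>
      obtain ⟨S, a, b, e⟩ := ih
      have : ¬ ∀ y ∈ Y, ∃ c ∈ S, nm (y - c) ≤ 2 * r := fun h => c ⟨S, bd S a b, h⟩
      push Not at this
      obtain ⟨y, hy, k⟩ := this
      have ny : y ∉ S := fun h => by
        obtain ⟨x, hx⟩ := nonempty_of_sum_ne_zero (hθ.trans_le (hY y hy)).ne'
        obtain ⟨C, -, c2⟩ := hC x (mem_filter.1 hx).1
        obtain ⟨c, -, c3⟩ := c2 y (mem_filter.1 hx).2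
        exact (k y h).not_ge (cl c3 c3)
      refine ⟨insert y S, fun v hv => (mem_insert.1 hv).elim (fun h => h ▸ hy) (a v), fun v hv v' hv'
        ne => ?_, by rw [card_insert_of_notMem ny, e]⟩
      rcases mem_insert.1 hv with e1 | e1 <;> rcases mem_insert.1 hv' with e2 | e2
      · exact absurd (e1.trans e2.symm) ne
      · exact e1 ▸ k _ e2
      · rw [hn.comm]; exact e2 ▸ k _ e1
      · exact b _ e1 _ e2 ne
  obtain ⟨n, hn⟩ := exists_nat_gt (K / θ)
  obtain ⟨S, a, b, e⟩ := all n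
  exact hn.not_ge (e ▸ bd S a b)

end Crest.Agent.N49.Af
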