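import Crest.Agent.N49.Af.Lad
import Crest.Agent.N49.Af.Pop

/-! Row 49, Af (helper42): few clusters over every point give an approximate Freiman
homomorphism (ladder and tests). -/

set_option autoImplicit false

open Finset

namespace Crest.Agent.N49.Af.Tt

variable {Λ H : Type*} [SeminormedAddCommGroup H] [AddCommGroup Λ]

theorem ms_sh {U : Finset Λ} {β : Λ → ℝ} {z : Λ} {η : ℝ} (h : Sh U β z η) (P : Λ → Prop) :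
    ms U β (fun y => P (y + z)) ≤ ms U β P + η := by
  classical
  have := h (fun y => if P y then 1 else 0) fun y => by split_ifs <;> norm_num
  simp only [mul_ite, mul_one, mul_zero, ← sum_filter] at this
  unfold ms
  convert this

/-- approximate Freiman homomorphisms of order `k` -/
def AF (k : ℕ) (A : Finset Λ) (ψ : Λ → H) (ε : ℝ) : Prop :=
  ∀ u v : Fin k → Λ, (∀ i, u i ∈ A) → (∀ i, v i ∈ A) → ∑ i, u i = ∑ i, v i →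
    ‖∑ i, ψ (u i) - ∑ i, ψ (v i)‖ ≤ ε

/-- what the tests give -/
def Tq (k : ℕ) (a : Λ → ℝ) (ψ : Λ → H) (r : ℝ) (Q : Finset Λ → Prop) : Prop :=
  ∀ (A : Finset Λ) (T : Finset H), Cl (fun u v : Fin k → Λ => ∑ i, u i = ∑ i, v i) A ψ
    {v | ‖v‖ ≤ r} T → ∃ A' ⊆ A, ∑ x ∈ A, a x ≤ (2 * #T + 1) ^ (6 * k + 30) * ∑ x ∈ A', a x ∧ Q A'

theorem laf0 (k : ℕ) {A B B' : Finset Λ} {a b : Λ → ℝ} {δ K η r : ℝ} {ψ φ : Λ → H}
    {Q : Finset Λ → Prop}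
    (a0 : ∀ x, 0 ≤ a x) (b0 : ∀ x, 0 ≤ b x) (a1 : ∑ x ∈ A, a x ≤ 1) (b1 : ∑ x ∈ B, b x ≤ 1)
    (hs : ∀ z ∈ A, Sh B b z η) (hB : B' ⊆ B) (hδ : 0 < δ) (dA : δ ≤ ∑ x ∈ A, a x)
    (dB : δ ≤ ∑ x ∈ B', b x) (hK : 1 ≤ K) (hr : 0 ≤ r) (hη : η ≤ δ ^ 2 / (32 * (k + 1) ^ 2))
    (hC : ∀ d, ∃ C : Finset H, (#C : ℝ) ≤ K ∧ ∀ x ∈ A, ∀ y ∈ B', x + y = d →
      ∃ c ∈ C, ‖ψ x + φ y - c‖ ≤ r)
    (hT : Tq k a ψ (4 ^ (k + 1) * r) Q) :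
    ∃ A' ⊆ A, δ / 2 ≤ (4 * (32 * (k + 1) ^ 2 * K / δ ^ 2) ^ 2 ^ (k + 1) / δ + 1) ^ (6 * k + 30) *
      ∑ x ∈ A', a x ∧ Q A' := by
  classical
  choose G g1 g2 using hC
  have d1 : δ ≤ 1 := dA.trans a1
  set τ := δ ^ 2 / (32 * (k + 1) ^ 2) with hτ
  have t0 : 0 < τ := by positivity
  have k0 : (0 : ℝ) ≤ k := Nat.cast_nonneg k
  have e1 : 32 * (k + 1) ^ 2 * τ = δ ^ 2 := by rw [hτ]; field_simp
  have d2 : δ ^ 2 ≤ δ := by nlinarith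
  have t1 : τ ≤ 1 := by nlinarith [mul_nonneg k0 t0.le, mul_nonneg (mul_nonneg k0 k0) t0.le]
  obtain ⟨A₁, s₁, m₁, T, t₁, c₁⟩ := Ld.clusters (A := A) (U := B) (α := a) (β := b) (η := τ)
    (ψ := ψ) ⟨a0, a1, b0, b1, t0.le, fun z hz => ms_sh ((hs z hz).mono hη)⟩ (B := (B' : Set Λ))
    (φ := φ) (G := G) (fun x hx y hy => g2 _ x hx y hy (add_comm _ _)) hr hK g1 t0 t1
    (l := δ / (8 * (k + 1))) (by positivity) k (half_pos hδ) (by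
      have e2 : ms B b (· ∈ (B' : Set Λ)) = ∑ x ∈ B', b x := by
        unfold ms
        congr 1
        ext x
        simp only [mem_filter, mem_coe]
        exact ⟨fun h => h.2, fun h => ⟨hB h, h⟩⟩
      have e3 : k * (δ / (8 * (k + 1))) ≤ δ / 8 := by
        rw [← mul_div_assoc, div_le_div_iff₀ (by positivity) (by positivity)]; nlinarith
      rw [e2, mul_add (k : ℝ)]
      nlinarith [mul_nonneg k0 t0.le, mul_nonneg (mul_nonneg k0 k0) t0.le])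
  obtain ⟨A₂, s₂, m₂, c₂⟩ := hT A₁ T c₁
  refine ⟨A₂, s₂.trans s₁, le_trans ?_ (m₂.trans (mul_le_mul_of_nonneg_right
    (pow_le_pow_left₀ (by positivity) ?_ _) (sum_nonneg fun x _ => a0 x))), c₂⟩
  · have : k * ((τ + τ) / (δ / (8 * (k + 1)))) ≤ δ / 2 := by
      rw [← mul_div_assoc, div_le_iff₀ (by positivity), show δ / 2 * (δ / (8 * (k + 1))) =
        2 * (k + 1) * τ by rw [hτ]; field_simp; ring]
      nlinarith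
    linarith
  · rw [show 32 * (k + 1) ^ 2 * K / δ ^ 2 = K / τ by rw [hτ]; field_simp]
    rw [show 4 * (K / τ) ^ 2 ^ (k + 1) / δ = 2 * ((K / τ) ^ 2 ^ (k + 1) / (δ / 2)) by
      field_simp; ring]
    linarith

/-- dyadic form -/
theorem laf1g (k : ℕ) : ∃ C : ℕ, ∀ {Λ H : Type} [SeminormedAddCommGroup H] [AddCommGroup Λ]
    {A B B' : Finset Λ} {a b : Λ → ℝ} {η r : ℝ} {Q : Finset Λ → Prop} {ψ φ : Λ → H} (n : ℕ), 1 ≤ n →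
    (∀ x, 0 ≤ a x) → (∀ x, 0 ≤ b x) → ∑ x ∈ A, a x ≤ 1 → ∑ x ∈ B, b x ≤ 1 →
    (∀ z ∈ A, Sh B b z η) → B' ⊆ B → 1 ≤ 2 ^ n * ∑ x ∈ A, a x → 1 ≤ 2 ^ n * ∑ x ∈ B', b x →
    0 ≤ r → 2 ^ (C * n) * η ≤ 1 → (∀ d, ∃ T : Finset H, (#T : ℝ) ≤ 2 ^ n ∧ ∀ x ∈ A, ∀ y ∈ B',
      x + y = d → ∃ c ∈ T, ‖ψ x + φ y - c‖ ≤ r) →
    Tq k a ψ (4 ^ (k + 1) * r) Q → ∃ A' ⊆ A, 1 ≤ 2 ^ (C * n) * ∑ x ∈ A', a x ∧ Q A' := by
  refine ⟨((2 * k + 8) * 2 ^ (k + 1) + 4) * (6 * k + 30) + 2, fun {Λ H} _ _ A B B' a b η r Q ψ φ n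
    hn a0 b0 a1 b1 hs hB dA dB hr hη hC hT => ?_⟩
  have p : ∀ {i j : ℕ}, i ≤ j → (2 : ℝ) ^ i ≤ 2 ^ j := pow_le_pow_right₀ one_le_two
  have n0 : (0 : ℝ) < 2 ^ n := by positivity
  have k1 : ((k : ℝ) + 1) ≤ 2 ^ k := by exact_mod_cast Nat.lt_two_pow_self
  have k2 : 32 * ((k : ℝ) + 1) ^ 2 ≤ 2 ^ ((2 * k + 5) * n) := by
    refine le_trans ?_ (p (Nat.le_mul_of_pos_right _ hn))
    rw [pow_add, mul_comm 2 k, pow_mul, mul_comm]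
    gcongr; norm_num
  have q : 1 ≤ 2 ^ (k + 1) := Nat.one_le_two_pow
  obtain ⟨A', s, m, f⟩ := laf0 k (δ := (2 ^ n)⁻¹) (K := 2 ^ n) a0 b0 a1 b1 hs hB (inv_pos.2 n0)
    ((inv_le_iff_one_le_mul₀' n0).2 dA) ((inv_le_iff_one_le_mul₀' n0).2 dB)
    (one_le_pow₀ one_le_two) hr (by
      rw [le_div_iff₀ (by positivity), inv_pow, ← one_div, le_div_iff₀ (by positivity)]
      rcases le_total η 0 with e | e
      · exact (mul_nonpos_of_nonpos_of_nonneg (mul_nonpos_of_nonpos_of_nonneg e (by positivity))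
          (by positivity)).trans zero_le_one
      refine le_trans ?_ hη
      rw [mul_assoc, mul_comm]
      refine mul_le_mul_of_nonneg_right ((mul_le_mul_of_nonneg_right k2 (by positivity)).trans ?_) e
      rw [← pow_mul, ← pow_add, mul_comm n, ← add_mul]
      have h1 : 2 * k + 8 ≤ (2 * k + 8) * 2 ^ (k + 1) := Nat.le_mul_of_pos_right _ q
      have h2 := Nat.le_mul_of_pos_right ((2 * k + 8) * 2 ^ (k + 1) + 4) (by omega : 0 < 6 * k + 30)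
      exact p (Nat.mul_le_mul_right _ (by omega))) hC hT
  refine ⟨A', s, ?_, f⟩
  have e1 : 32 * ((k : ℝ) + 1) ^ 2 * 2 ^ n / (2 ^ n)⁻¹ ^ 2 ≤ 2 ^ ((2 * k + 8) * n) := by
    rw [inv_pow, div_inv_eq_mul, show (2 * k + 8) * n = (2 * k + 5) * n + n + n * 2 by ring,
      pow_add, pow_add, pow_mul 2 n 2]
    gcongr
  have e2 : 4 * (32 * ((k : ℝ) + 1) ^ 2 * 2 ^ n / (2 ^ n)⁻¹ ^ 2) ^ 2 ^ (k + 1) / (2 ^ n)⁻¹ + 1 ≤
      2 ^ (((2 * k + 8) * 2 ^ (k + 1) + 4) * n) := by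
    have e3 := pow_le_pow_left₀ (by positivity) e1 (2 ^ (k + 1))
    rw [← pow_mul] at e3
    rw [div_inv_eq_mul, show ((2 * k + 8) * 2 ^ (k + 1) + 4) * n =
      (2 * k + 8) * n * 2 ^ (k + 1) + n + 3 * n by ring, pow_add (2 : ℝ), pow_add (2 : ℝ)]
    have e4 : (1 : ℝ) ≤ 2 ^ ((2 * k + 8) * n * 2 ^ (k + 1)) * 2 ^ n :=
      one_le_mul_of_one_le_of_one_le (one_le_pow₀ one_le_two) (one_le_pow₀ one_le_two)
    have e5 : (2 : ℝ) ^ 3 ≤ 2 ^ (3 * n) := p (by omega)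
    have e6 := mul_le_mul_of_nonneg_right e3 n0.le
    have e7 := mul_le_mul_of_nonneg_left e5 (zero_le_one.trans e4)
    rw [mul_assoc]
    linarith
  have s0 : 0 ≤ ∑ x ∈ A', a x := sum_nonneg fun x _ => a0 x
  have e6 := m.trans (mul_le_mul_of_nonneg_right (pow_le_pow_left₀ (by positivity) e2 _) s0)
  rw [← pow_mul, div_le_iff₀ two_pos, inv_le_iff_one_le_mul₀' n0] at e6
  refine e6.trans ?_
  rw [mul_right_comm, ← pow_succ, ← mul_assoc, ← pow_add]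
  exact mul_le_mul_of_nonneg_right (p (by nlinarith)) s0

theorem laf1 (k : ℕ) : ∃ C : ℕ, ∀ {Λ H : Type} [SeminormedAddCommGroup H] [AddCommGroup Λ]
    {A B B' : Finset Λ} {a b : Λ → ℝ} {η r R : ℝ} {ψ φ : Λ → H} (n : ℕ), 1 ≤ n →
    (∀ x, 0 ≤ a x) → (∀ x, 0 ≤ b x) → ∑ x ∈ A, a x ≤ 1 → ∑ x ∈ B, b x ≤ 1 →
    (∀ z ∈ A, Sh B b z η) → B' ⊆ B → 1 ≤ 2 ^ n * ∑ x ∈ A, a x → 1 ≤ 2 ^ n * ∑ x ∈ B', b x →
    0 ≤ r → 2 ^ (C * n) * η ≤ 1 → (∀ d, ∃ T : Finset H, (#T : ℝ) ≤ 2 ^ n ∧ ∀ x ∈ A, ∀ y ∈ B',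
      x + y = d → ∃ c ∈ T, ‖ψ x + φ y - c‖ ≤ r) →
    Ts {v : H | ‖v‖ ≤ 4 ^ (k + 1) * r} {v | ‖v‖ ≤ R} →
    ∃ A' ⊆ A, 1 ≤ 2 ^ (C * n) * ∑ x ∈ A', a x ∧ AF k A' ψ (R + 4 ^ (k + 1) * r) := by
  obtain ⟨C, h⟩ := laf1g k
  refine ⟨C, fun n hn a0 b0 a1 b1 hs hB dA dB hr hη hC hT => h n hn a0 b0 a1 b1 hs hB dA dB hr hη hC
    fun A T c => ?_⟩
  obtain ⟨A', s, m, c⟩ := tst a0 hT A T c
  refine ⟨A', s, m, fun u v hu hv e => ?_⟩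
  obtain ⟨s, hs, e⟩ := c u v hu hv e
  exact (norm_le_insert' _ s).trans (add_le_add hs e)

end Crest.Agent.N49.Af.Tt
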