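import Crest.Agent.N49.Af.Drc

/-! Row 49, Af (helper95): transfer from probability measures on a countable group to finite
weights. -/

set_option autoImplicit false

open Finset MeasureTheory

namespace Crest.Agent.N49.Af

section
variable {X Y : Type*} [MeasurableSpace X] [MeasurableSingletonClass X] [MeasurableSpace Y]
  [MeasurableSingletonClass Y] (μ : Measure X) [IsProbabilityMeasure μ] (ν : Measure Y)
  [IsProbabilityMeasure ν]

theorem W_real (s : Finset X) : W s fun x => μ.real {x} :=
  ⟨fun _ => measureReal_nonneg, by rw [sum_measureReal_singleton]; exact measureReal_le_one⟩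

theorem exists_fin [Countable X] {κ : ℝ} (hκ : 0 < κ) : ∃ s : Finset X, μ.real (s : Set X)ᶜ ≤ κ := by
  have a : HasSum (fun x => μ.real {x}) 1 := by
    have := hasSum_integral_iUnion (μ := μ) (s := fun x : X => ({x} : Set X)) (f := fun _ => (1 : ℝ))
      (fun _ => measurableSet_singleton _) (fun x y h => Set.disjoint_singleton.2 h)
      (integrable_const _).integrableOn
    simpa [Set.iUnion_of_singleton, Measure.real] using this
  obtain ⟨s, hs⟩ := (a.eventually (lt_mem_nhds (show 1 - κ < 1 by linarith))).exists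
  refine ⟨s, ?_⟩
  rw [sum_measureReal_singleton] at hs
  rw [measureReal_compl s.measurableSet, probReal_univ]
  linarith

theorem real_le_fin (s : Finset X) (S : Set X) :
    μ.real S ≤ ∑ x ∈ s, μ.real {x} * I (x ∈ S) + μ.real (s : Set X)ᶜ := by
  classical
  rw [← sum_I, sum_measureReal_singleton]
  refine (measureReal_mono fun x hx => ?_).trans (measureReal_union_le _ _)
  by_cases c : x ∈ s
  · exact Or.inl (by simpa using ⟨c, hx⟩)
  · exact Or.inr c

theorem prod_le_fin (s : Finset X) (t : Finset Y) (S : Set (X × Y)) :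
    (μ.prod ν).real S ≤ ∑ x ∈ s, μ.real {x} * ∑ y ∈ t, ν.real {y} * I ((x, y) ∈ S) +
      μ.real (s : Set X)ᶜ + ν.real (t : Set Y)ᶜ := by
  have a := real_le_fin (μ.prod ν) (s ×ˢ t) S
  have b : (μ.prod ν).real ((s ×ˢ t : Finset (X × Y)) : Set (X × Y))ᶜ ≤
      μ.real (s : Set X)ᶜ + ν.real (t : Set Y)ᶜ := by
    refine (measureReal_mono (s₂ := (s : Set X)ᶜ ×ˢ Set.univ ∪ Set.univ ×ˢ (t : Set Y)ᶜ)
      fun x hx => ?_).trans ((measureReal_union_le _ _).trans_eq (by simp [measureReal_prod_prod]))
    by_cases c : x.1 ∈ s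
    · exact Or.inr ⟨trivial, fun h => hx (by simpa using ⟨c, h⟩)⟩
    · exact Or.inl ⟨c, trivial⟩
  have e : ∀ x y, (μ.prod ν).real {(x, y)} = μ.real {x} * ν.real {y} := fun x y => by
    rw [← Set.singleton_prod_singleton, measureReal_prod_prod]
  rw [sum_product] at a
  simp only [e, mul_assoc, ← mul_sum] at a
  linarith

end

variable {Λ : Type*} [AddCommGroup Λ] [MeasurableSpace Λ] [MeasurableSingletonClass Λ]

theorem sh_of_qi (μ : Measure Λ) [IsProbabilityMeasure μ] (s : Finset Λ) {z : Λ} {c : ℝ}
    (h : ∀ S : Set Λ, μ.real S ≤ μ.real ((· + z) '' S) + c) :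
    Sh s (fun x => μ.real {x}) z (c + μ.real (s : Set Λ)ᶜ) := fun f hf => by
  classical
  have n : ∀ x : Λ, 0 ≤ μ.real {x} := fun _ => measureReal_nonneg
  set S := {x ∈ s | μ.real {x + z} < μ.real {x}} with hS
  have a := h S
  rw [← coe_image, ← sum_measureReal_singleton, ← sum_measureReal_singleton,
    sum_image (add_left_injective z).injOn] at a
  have b : ∑ x ∈ s, μ.real {x} * f (x + z) ≤ ∑ x ∈ s, μ.real {x + z} * f (x + z) +
      ∑ x ∈ S, (μ.real {x} - μ.real {x + z}) := by
    rw [hS, sum_filter, ← sum_add_distrib]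
    refine sum_le_sum fun x _ => ?_
    have := hf (x + z)
    split_ifs with k <;> nlinarith
  have c' : ∑ x ∈ s, μ.real {x + z} * f (x + z) ≤ ∑ x ∈ s, μ.real {x} * f x +
      μ.real (s : Set Λ)ᶜ := by
    rw [← sum_image (s := s) (g := (· + z)) (f := fun y => μ.real {y} * f y)
      (add_left_injective z).injOn, ← sum_inter_add_sum_sdiff _ s]
    refine add_le_add (sum_le_sum_of_subset_of_nonneg inter_subset_right fun x _ _ =>
      mul_nonneg (n x) (hf x).1) ((sum_le_sum fun x _ => mul_le_of_le_one_right (n x)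
        (hf x).2).trans ?_)
    rw [sum_measureReal_singleton]
    exact measureReal_mono fun x hx => (mem_sdiff.1 hx).2
  rw [sum_sub_distrib] at b
  linarith

end Crest.Agent.N49.Af
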