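import Crest.Agent.N49.Af.Laf0
import Crest.Agent.N49.Af.Tr
import Crest.Agent.N49.Lo.Amh

/-! Row 49, Af (helper95): the approximate Freiman theorem for measures, with many centres. -/

set_option autoImplicit false

open Finset MeasureTheory

namespace Crest.Agent.N49.Af

section
variable {H Λ : Type*} [AddCommGroup H] [AddCommGroup Λ] {nm : H → ℝ} {A M B : Finset Λ}
  {a m b : Λ → ℝ} {δ η ε : ℝ}

/-- many centres, with a domain -/
theorem drcm (hn : Nm nm) (ha : W A a) (ha' : ∑ x ∈ A, a x = 1) (hm : W M m) (hb : W B b)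
    (X : Set Λ) (ψ β α : Λ → H) (hs : ∀ z ∈ A, Sh M m z η ∧ Sh B b z η) (h0 : 0 < δ) (h1 : δ ≤ 1)
    (η0 : 0 ≤ η) (hη : η ≤ δ ^ 9 / 10 ^ 10)
    (h : δ ≤ ∑ t ∈ M, m t * ∑ u ∈ B, b u * I (t ∈ X ∧ nm (ψ (t + u) - β t - α u) ≤ ε)) :
    ∃ T ⊆ M, δ ^ 3 / 128 ≤ ∑ t ∈ T, m t ∧ ∀ t₀ ∈ T, ∃ A' ⊆ A, ∃ B' ⊆ B,
      δ ^ 3 / 512 ≤ ∑ x ∈ A', a x ∧ δ ^ 3 / 512 ≤ ∑ u ∈ B', b u ∧ (∀ x ∈ A', t₀ + x ∈ X) ∧ ∀ d,
      Cov nm {v | ∃ x ∈ A', ∃ y ∈ B', x + y = d ∧ v = β (t₀ + x) + α y} (10 ^ 10 / δ ^ 9)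
        (6 * ε) := by
  classical
  have p := p3 hm hb _ h0 h
  set E : Λ → Λ → Prop := fun t u => nm (ψ (t + u) - β t - α u) ≤ ε with hE
  set V : Λ → ℝ := fun u' => ∑ t ∈ M, m t * (I (E t u') * ∑ u ∈ B, b u * I (E t u)) with hV
  have Vu : ∀ u, 0 ≤ V u ∧ V u ≤ 1 := fun _ => hm.u fun _ => u_mul (I_u _) (hb.u fun _ => I_u _)
  set f : Λ → ℝ := fun s => ∑ u' ∈ B, b u' * (I (s ∈ X ∧ E s u') * V u') with hf
  have fu : ∀ s, 0 ≤ f s ∧ f s ≤ 1 := fun _ => hb.u fun _ => u_mul (I_u _) (Vu _)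
  have e : δ ^ 3 / 32 ≤ ∑ s ∈ M, m s * f s := by
    refine p.trans ((hb.mono (g := fun u' => (∑ s ∈ M, m s * I (s ∈ X ∧ E s u')) * V u')
      fun u' _ => mul_le_mul_of_nonneg_left (hm.mono fun t _ => mul_le_mul (I_mono And.right)
        (hb.mono fun _ _ => I_mono And.right) (hb.nn' fun _ => I_nn _) (I_nn _))
          (hm.nn' fun _ => I_nn _)).trans_eq ?_)
    rw [hf, swap]; simp only [sum_mul, mul_assoc]
  have d3 := pow_pos h0 3
  have d9 : δ ^ 9 ≤ δ ^ 3 := pow_le_pow_of_le_one h0.le h1 (by norm_num)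
  have q := ha.le_add (f := fun _ => ∑ s ∈ M, m s * f s) η0 fun x hx => (hs x hx).1.ge f fu
  rw [← sum_mul, ha', one_mul, swap A] at q
  set F : Λ → ℝ := fun s => ∑ x ∈ A, a x * f (s + x) with hF
  have q2 := hm.le_add (f := F) (g := fun s => I (δ ^ 3 / 128 ≤ F s)) (c := δ ^ 3 / 128)
    (by positivity) fun s _ => by
      by_cases c : δ ^ 3 / 128 ≤ F s
      · rw [I_pos c]; linarith [(ha.u (f := fun x => f (s + x)) fun _ => fu _).2]
      · rw [I_neg c]; linarith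
  refine ⟨{t ∈ M | δ ^ 3 / 128 ≤ F t}, filter_subset _ _, by rw [sum_I]; linarith, fun t₀ ht => ?_⟩
  obtain ⟨A', a1, B', b1, a2, b2, c⟩ := drc (δ := δ ^ 3 / 128) (ε := ε) (A := {x ∈ A | t₀ + x ∈ X})
    hn ⟨ha.nn, (sum_le_sum_of_subset_of_nonneg (filter_subset _ _) fun x _ _ => ha.nn x).trans ha.le⟩
    hm hb (fun q => ψ (t₀ + q)) (fun x => β (t₀ + x)) ψ β α (fun z hz => hs z (mem_filter.1 hz).1)
    (by positivity) η0 (by
      have := pow_pos h0 9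
      rw [show (δ ^ 3 / 128) ^ 3 / 1000 = δ ^ 9 / 2097152000 by ring]; linarith)
    ((mem_filter.1 ht).2.trans_eq (by
      simp only [hF, hf, sum_I]
      rw [swap]; simp only [sum_mul, mul_assoc, hE, add_assoc, hV, I_and, mul_comm (I (_ ∈ X))]))
  refine ⟨A', a1.trans (filter_subset _ _), B', b1, by linarith, by linarith,
    fun x hx => (mem_filter.1 (a1 hx)).2, fun d => (c d).mono le_rfl ?_ le_rfl⟩
  rw [show (δ ^ 3 / 128) ^ 3 = δ ^ 9 / 2097152 by ring, div_div_eq_mul_div]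
  exact div_le_div_of_nonneg_right (by norm_num) (by positivity)

end

section
open Lo
variable {V : Type*} [SeminormedAddCommGroup V] {Z : AddSubgroup V}

theorem nr_mk {r : ℝ} {v : V} (h : Nr Z r v) : ‖(v : V ⧸ Z)‖ ≤ r := by
  obtain ⟨z, a, b⟩ := h
  rw [show (v : V ⧸ Z) = (v - z : V) from QuotientAddGroup.eq_iff_sub_mem.2 (by simpa)]
  exact QuotientAddGroup.norm_mk_le_norm.trans b

theorem nr_of_mk {r : ℝ} {v : V} (h : ‖(v : V ⧸ Z)‖ < r) : Nr Z r v := by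
  obtain ⟨w, a, b⟩ := QuotientAddGroup.norm_lt_iff.1 h
  exact ⟨v - w, QuotientAddGroup.eq_iff_sub_mem.1 a.symm, by simpa using b.le⟩

theorem ts_quot {r r' R : ℝ} (h : Tt.Ts {v | Nr Z r' v} {v | Nr Z R v}) (h0 : 0 ≤ r) (hr : r < r') :
    Tt.Ts {v : V ⧸ Z | ‖v‖ ≤ r} {v | ‖v‖ ≤ R} := fun S hS => by
  classical
  obtain ⟨χ, a, b, c⟩ := h (S.image Quotient.out) fun v hv k => by
    obtain ⟨x, hx, rfl⟩ := mem_image.1 hv
    exact hS x hx (by simpa using nr_mk k)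
  have t : ∀ n : ℕ, ∀ z ∈ Z, ‖χ z - 1‖ ≤ (4 / 7) ^ n := fun n => by
    induction n with
    | zero => exact fun z hz => (b z (Nr.of_mem hz (by linarith))).trans (by norm_num)
    | succ n ih =>
      intro z hz
      have e1 := ih _ (Z.add_mem hz hz)
      have e2 := b z (Nr.of_mem hz (by linarith))
      have e3 := norm_sub_le (χ z + 1) (χ z - 1)
      rw [AddChar.map_add_eq_mul, show χ z * χ z - 1 = (χ z - 1) * (χ z + 1) by ring, norm_mul] at e1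
      rw [show χ z + 1 - (χ z - 1) = 2 by ring, Complex.norm_two] at e3
      rw [pow_succ]; nlinarith [norm_nonneg (χ z - 1)]
  have t1 : ∀ x y : V, (x : V ⧸ Z) = y → χ x = χ y := fun x y e => by
    have : χ (x - y) = 1 := sub_eq_zero.1 (norm_le_zero_iff.1 (ge_of_tendsto'
      (tendsto_pow_atTop_nhds_zero_of_lt_one (by norm_num) (by norm_num))
        fun n => t n _ (QuotientAddGroup.eq_iff_sub_mem.1 e)))
    rw [← sub_add_cancel x y, AddChar.map_add_eq_mul, this, one_mul]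
  refine ⟨⟨fun v => χ v.out, (t1 _ 0 (by simp)).trans χ.map_zero_eq_one, fun x y =>
    (t1 _ (x.out + y.out) (by simp)).trans (χ.map_add_eq_mul _ _)⟩, fun x => a _, fun v hv =>
      b _ (nr_of_mk (by simpa using lt_of_le_of_lt hv hr)), ?_⟩
  rwa [filter_image, card_image_of_injective _ Quotient.out_injective,
    card_image_of_injective _ Quotient.out_injective] at c

end

/-- the approximate Freiman theorem, measure form with many centres -/
def LAF : Prop := ∃ C : ℕ, ∀ (d : Type) [Fintype d] [DecidableEq d] (N : Seminorm ℝ (d → ℝ))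
  (μ β ν : Measure (d → ℤ)) [IsProbabilityMeasure μ] [IsProbabilityMeasure β]
  [IsProbabilityMeasure ν] (V : Type) [NormedAddCommGroup V] (Z : AddSubgroup V) (X : Set (d → ℤ))
  (ψ f h : (d → ℤ) → V) (ε ε' : ℝ) (m : ℕ), 0 < ε → To.QI N μ → To.QI N β →
  Integrable (fun x => N (La.ci x)) ν → ∫ x, N (La.ci x) ∂ν ≤ 1 / 2 ^ (C * (m + 1)) →
  Tt.Ts {v | Lo.Nr Z (C * ε) v} {v | Lo.Nr Z ε' v} →
  1 / 2 ^ m ≤ (μ.prod β).real {p | p.1 ∈ X ∧ Lo.Nr Z ε (ψ (p.1 + p.2) - f p.1 - h p.2)} →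
  ∃ T : Set (d → ℤ), 1 / 2 ^ (C * (m + 1)) ≤ μ.real T ∧ ∀ t ∈ T, ∃ A : Set (d → ℤ),
    1 / 2 ^ (C * (m + 1)) ≤ ν.real A ∧ (∀ x ∈ A, t + x ∈ X) ∧
      Lo.AF 6 Z (ε' + C * ε) A fun x => f (t + x)

theorem lafM : LAF := by
  classical
  obtain ⟨C, hC⟩ := Tt.laf1 6
  obtain ⟨D, D1, D2⟩ : ∃ D : ℕ, (∀ n, C * (43 * n) + 50 * n ≤ D * n) ∧ (98304 : ℝ) < D :=
    ⟨43 * C + 100000, fun n => by
      rw [show (43 * C + 100000) * n = C * (43 * n) + 100000 * n by ring]; omega, by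
      push_cast; linarith [Nat.cast_nonneg (α := ℝ) C]⟩
  refine ⟨D, fun d _ _ N μ β ν _ _ _ V _ Z X ψ f h ε ε' m ε0 qμ qβ iν hν hT hd => ?_⟩
  have p : ∀ {i j : ℕ}, i ≤ j → (2 : ℝ) ^ i ≤ 2 ^ j := pow_le_pow_right₀ one_le_two
  have ee := D1 (m + 1)
  set κ : ℝ := 1 / 2 ^ (D * (m + 1)) with hκ
  have κ0 : 0 < κ := by positivity
  have kk : ∀ i, i + 3 ≤ D * (m + 1) → 2 ^ i * (8 * κ) ≤ 1 := fun i hi => by
    rw [hκ, mul_one_div, mul_div_assoc', div_le_one (by positivity), show (8 : ℝ) = 2 ^ 3 by norm_num,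
      ← pow_add]
    exact p hi
  set y : ℝ := 2 ^ (m + 1) with hy
  have y2 : 2 ≤ y := by simpa using p (show 1 ≤ m + 1 by omega)
  have y0 : 0 < y := by linarith
  have yp : ∀ i, y ^ i = 2 ^ (i * (m + 1)) := fun i => by rw [hy, ← pow_mul, mul_comm]
  have y34 : (10 : ℝ) ^ 10 ≤ y ^ 34 := le_trans (by norm_num) (pow_le_pow_left₀ zero_le_two y2 34)
  have y9 : (512 : ℝ) ≤ y ^ 40 := le_trans (by norm_num) (pow_le_pow_left₀ zero_le_two y2 40)
  have e1 : (10 : ℝ) ^ 10 / y⁻¹ ^ 9 ≤ 2 ^ (43 * (m + 1)) := by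
    rw [inv_pow, div_inv_eq_mul, ← yp, show y ^ 43 = y ^ 34 * y ^ 9 by ring]
    gcongr
  have e2 : ∀ s : ℝ, y⁻¹ ^ 3 / 512 ≤ s → 1 ≤ 2 ^ (43 * (m + 1)) * s := fun s hs => by
    refine le_trans ?_ (mul_le_mul_of_nonneg_left hs (by positivity))
    rw [← yp, show y ^ 43 * (y⁻¹ ^ 3 / 512) = y ^ 40 / 512 by field_simp, one_le_div (by norm_num)]
    exact y9
  obtain ⟨M, hM⟩ := exists_fin μ κ0
  obtain ⟨B, hB⟩ := exists_fin β κ0
  obtain ⟨s, hs⟩ := exists_fin ν (show (0 : ℝ) < 1 / 4 by norm_num)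
  set A := {x ∈ s | N (La.ci x) < 4 * κ} with hA
  have wA : 1 / 2 ≤ ν.real A := by
    have a := mul_meas_ge_le_integral_of_nonneg (ae_of_all _ fun x => apply_nonneg N _) iν (4 * κ)
    have b : ν.real Set.univ ≤ ν.real A + (ν.real (s : Set (d → ℤ))ᶜ +
        ν.real {x | 4 * κ ≤ N (La.ci x)}) :=
      (measureReal_mono fun x _ => by
        by_cases c : x ∈ s <;> by_cases c' : N (La.ci x) < 4 * κ <;> simp [hA, c, c', not_lt.1]).trans
        ((measureReal_union_le _ _).trans (add_le_add_right (measureReal_union_le _ _) _))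
    rw [probReal_univ] at b
    nlinarith
  have A0 : 0 < ν.real A := by linarith
  set a : (d → ℤ) → ℝ := fun x => ν.real {x} / ν.real A with ha
  have sa : ∀ t : Finset (d → ℤ), ∑ x ∈ t, a x = ν.real t / ν.real A := fun t => by
    rw [ha, ← sum_div, sum_measureReal_singleton]
  have a1 : ∑ x ∈ A, a x = 1 := by rw [sa, div_self A0.ne']
  have Wa : W A a := ⟨fun _ => div_nonneg measureReal_nonneg A0.le, a1.le⟩
  have sh : ∀ z ∈ A, Sh M (fun x => μ.real {x}) z (8 * κ) ∧ Sh B (fun x => β.real {x}) z (8 * κ) :=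
    fun z hz => ⟨(sh_of_qi μ M fun S => qμ S z).mono (by linarith [(mem_filter.1 hz).2]),
      (sh_of_qi β B fun S => qβ S z).mono (by linarith [(mem_filter.1 hz).2])⟩
  obtain ⟨T, -, t1, t2⟩ := drcm (nm := fun v : V ⧸ Z => ‖v‖) (δ := y⁻¹) (ε := ε)
    ⟨norm_add_le, norm_neg⟩ Wa a1 (W_real μ M) (W_real β B) X (fun x => ψ x) (fun x => f x)
    (fun x => h x) sh (inv_pos.2 y0) (inv_le_one_of_one_le₀ (by linarith)) (by positivity) (by
      rw [← inv_div, ← one_div, le_div_iff₀' (by positivity)]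
      exact (mul_le_mul_of_nonneg_right e1 (by positivity)).trans (kk _ (by omega))) (by
      have a := (hd.trans (prod_le_fin μ β M B _))
      have b := (W_real μ M).mono (f := fun t => ∑ u ∈ B, β.real {u} * I ((t, u) ∈
          {p : (d → ℤ) × (d → ℤ) | p.1 ∈ X ∧ Lo.Nr Z ε (ψ (p.1 + p.2) - f p.1 - h p.2)}))
        (g := fun t => ∑ u ∈ B, β.real {u} *
          I (t ∈ X ∧ ‖((ψ (t + u) : V ⧸ Z) - f t - h u)‖ ≤ ε)) fun t _ =>
        (W_real β B).mono fun u _ => I_mono fun k => ⟨k.1, nr_mk k.2⟩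
      have c := kk (m + 1) (by omega)
      have e : (1 : ℝ) / 2 ^ m = 2 * y⁻¹ := by rw [hy]; field_simp; ring
      have : 8 * κ ≤ y⁻¹ := by rw [← one_div, le_div_iff₀' y0]; exact c
      linarith)
  rw [sum_measureReal_singleton] at t1
  refine ⟨T, ?_, fun t ht => ?_⟩
  · have a := e2 (μ.real T) (le_trans (by have := pow_pos (inv_pos.2 y0) 3; linarith) t1)
    rw [hκ, div_le_iff₀' (by positivity)]
    exact a.trans (mul_le_mul_of_nonneg_right (p (by omega)) measureReal_nonneg)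
  obtain ⟨A₁, s₁, B₁, s₂, d₁, d₂, x₁, c⟩ := t2 t ht
  have cε : 4 ^ (6 + 1) * (6 * ε) < (D : ℝ) * ε := by
    exact (le_of_eq (by ring)).trans_lt (mul_lt_mul_of_pos_right D2 ε0)
  obtain ⟨A', s', m', g⟩ := hC (A := A₁) (B := B) (B' := B₁) (a := a) (η := 8 * κ) (R := ε')
    (ψ := fun x => (f (t + x) : V ⧸ Z)) (φ := fun x => h x) (43 * (m + 1)) (by omega) Wa.nn
    (W_real β B).nn ((sum_le_sum_of_subset_of_nonneg s₁ fun x _ _ => Wa.nn x).trans Wa.le)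
    (W_real β B).le (fun z hz => (sh z (s₁ hz)).2) s₂ (e2 _ d₁) (e2 _ d₂) (by positivity : 0 ≤ 6 * ε)
    (kk _ (by omega)) (fun d => by
      obtain ⟨T, t1, t2⟩ := c d
      exact ⟨T, t1.trans e1, fun x hx y hy e => t2 _ ⟨x, hx, y, hy, e, rfl⟩⟩)
    (ts_quot hT (by positivity) cε)
  refine ⟨A', ?_, fun x hx => x₁ x (s' hx), fun u v hu hv e => nr_of_mk ?_⟩
  · have c := kk (C * (43 * (m + 1))) (by omega)
    rw [sa, ← mul_div_assoc, le_div_iff₀ A0] at m'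
    have : (0 : ℝ) < 2 ^ (C * (43 * (m + 1))) := by positivity
    nlinarith
  · have := g u v hu hv e
    simp only [QuotientAddGroup.mk_sub, QuotientAddGroup.mk_sum]
    linarith

end Crest.Agent.N49.Af
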