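import Crest.Agent.N49.Af.Laf
import Crest.Agent.N49.Lo.Amh

/-! Row 49, Af (helper42): `laf` modulo a subgroup, and tests for lattices in Euclidean spaces. -/

set_option autoImplicit false

open Finset

namespace Crest.Agent.N49.Af.Tt

open Lo (Nr)

theorem Ts.mono {H : Type*} [AddCommGroup H] {Z Z' W W' : Set H} (h : Ts Z W) (a : Z' ⊆ Z)
    (b : W ⊆ W') : Ts Z' W' := fun S hS =>
  let ⟨χ, p, q, r⟩ := h S fun v hv e => hS v hv (b e); ⟨χ, p, fun v hv => q v (a hv), r⟩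

/-- the group `V` with the distance to `Z` as seminorm -/
def QZ {V : Type} [SeminormedAddCommGroup V] (_ : AddSubgroup V) : Type := V

section
variable {V : Type} [SeminormedAddCommGroup V] {Z : AddSubgroup V}

instance : AddCommGroup (QZ Z) := inferInstanceAs (AddCommGroup V)

noncomputable instance : SeminormedAddCommGroup (QZ Z) :=
  SeminormedAddCommGroup.induced (QZ Z) (V ⧸ Z) (QuotientAddGroup.mk' Z)

theorem QZ.le {r : ℝ} {v : V} (h : Nr Z r v) : ‖(id v : QZ Z)‖ ≤ r := by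
  obtain ⟨z, hz, e⟩ := h
  refine le_trans (le_of_eq ?_) ((QuotientAddGroup.norm_mk_le_norm (S := Z) (m := v - z)).trans e)
  exact congrArg (fun x : V ⧸ Z => ‖x‖) (QuotientAddGroup.eq_iff_sub_mem.2
    (show v - (v - z) ∈ Z by simpa using hz))

theorem QZ.nr {r : ℝ} {v : V} (h : ‖(id v : QZ Z)‖ < r) : Nr Z r v := by
  obtain ⟨m, e, l⟩ := (QuotientAddGroup.norm_lt_iff (x := (v : V ⧸ Z))).1 h
  exact ⟨v - m, QuotientAddGroup.eq_iff_sub_mem.1 e.symm, by simpa using l.le⟩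

theorem QZ.sub {s t : ℝ} {x y : QZ Z} (hx : ‖x‖ ≤ s) (hy : ‖y‖ ≤ s) (h : s + s < t) :
    Nr Z t ((id x : V) - (id y : V)) := by
  have := (norm_sub_le x y).trans_lt ((add_le_add hx hy).trans_lt h)
  exact QZ.nr this

end

/-- from clusters over every point to an approximate Freiman homomorphism modulo `Z` -/
theorem laf1Z (k : ℕ) : ∃ C : ℕ, ∀ {Λ V : Type} [SeminormedAddCommGroup V] [AddCommGroup Λ]
    (Z : AddSubgroup V) {A B B' : Finset Λ} {a b : Λ → ℝ} {η r R : ℝ} {ψ φ : Λ → V} (n : ℕ), 1 ≤ n →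
    (∀ x, 0 ≤ a x) → (∀ x, 0 ≤ b x) → ∑ x ∈ A, a x ≤ 1 → ∑ x ∈ B, b x ≤ 1 →
    (∀ z ∈ A, Sh B b z η) → B' ⊆ B → 1 ≤ 2 ^ n * ∑ x ∈ A, a x → 1 ≤ 2 ^ n * ∑ x ∈ B', b x →
    0 < r → 2 ^ (C * n) * η ≤ 1 → (∀ d, ∃ T : Finset V, (#T : ℝ) ≤ 2 ^ n ∧ ∀ x ∈ A, ∀ y ∈ B',
      x + y = d → ∃ c ∈ T, Nr Z r (ψ x + φ y - c)) →
    Ts {v | Nr Z (4 ^ (k + 2) * r) v} {v | Nr Z R v} →
    ∃ A' ⊆ A, 1 ≤ 2 ^ (C * n) * ∑ x ∈ A', a x ∧ Lo.AF k Z R (A' : Set Λ) ψ := by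
  obtain ⟨C, h⟩ := laf1g k
  refine ⟨C, fun {Λ V} _ _ Z A B B' a b η r R ψ φ n hn a0 b0 a1 b1 hs hB dA dB hr hη hC hT =>
    h (H := QZ Z) (ψ := ψ) (φ := φ) n hn a0 b0 a1 b1 hs hB dA dB hr.le hη (fun d =>
      let ⟨T, t, e⟩ := hC d; ⟨T, t, fun x hx y hy s => let ⟨c, hc, l⟩ := e x hx y hy s
        ⟨c, hc, by have := QZ.le (V := V) (Z := Z) l; exact this⟩⟩) fun A T c => tst' (Z := {v : QZ Z | ‖v‖ ≤ 4 ^ (k + 1) * r}) a0 hT
          (fun x hx y hy => QZ.sub hx hy ?_) A T c⟩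
  have : (0 : ℝ) < 4 ^ k * r := by positivity
  rw [pow_add, pow_add]; linarith

/-- **rank-free approximate Freiman theorem modulo a subgroup** -/
theorem lafZ (k : ℕ) : ∃ C : ℕ, ∀ {Λ V : Type} [SeminormedAddCommGroup V] [AddCommGroup Λ]
    (Z : AddSubgroup V) {A M B : Finset Λ} {a m b : Λ → ℝ} {η ε R : ℝ} (ψ β α : Λ → V) (n : ℕ),
    1 ≤ n → W A a → ∑ x ∈ A, a x = 1 → W M m → W B b → (∀ z ∈ A, Sh M m z η ∧ Sh B b z η) →
    0 ≤ η → 2 ^ (C * n) * η ≤ 1 → 0 < ε →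
    1 ≤ 2 ^ n * ∑ t ∈ M, m t * ∑ u ∈ B, b u * I (Nr Z ε (ψ (t + u) - β t - α u)) →
    Ts {v | Nr Z (4 ^ (k + 3) * ε) v} {v | Nr Z R v} →
    ∃ t₀ ∈ M, ∃ A' ⊆ A, 1 ≤ 2 ^ (C * n) * ∑ x ∈ A', a x ∧
      Lo.AF k Z (R + 4 ^ (k + 3) * ε) (A' : Set Λ) fun x => β (t₀ + x) := by
  obtain ⟨C, hC⟩ := laf k
  refine ⟨C, fun {Λ V} _ _ Z A M B a m b η ε R ψ β α n hn ha a1 hm hb hs η0 hη ε0 h hT => ?_⟩
  have l : 4 ^ (k + 1) * (6 * ε) < 4 ^ (k + 3) * ε := by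
    have : (0 : ℝ) < 4 ^ k * ε := by positivity
    rw [pow_add, pow_add]; linarith
  obtain ⟨t₀, ht, A', s, m', f⟩ := hC (H := QZ Z) (R := R) (ε := ε) ψ β α n hn ha a1 hm hb hs η0 hη
    ε0.le (h.trans (mul_le_mul_of_nonneg_left (hm.mono fun t _ => hb.mono fun u _ =>
      I_mono QZ.le) (by positivity)))
    (hT.mono (fun v hv => QZ.nr (lt_of_le_of_lt hv l)) fun v hv => QZ.le hv)
  exact ⟨t₀, ht, A', s, m', fun u v hu hv e =>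
    QZ.nr ((f u v hu hv e).trans_lt (add_lt_add_right l R))⟩

open Po Matrix in
/-- tests for a lattice `Z = T (ℤ^κ)` in a Euclidean space -/
theorem ts_lin {κ V : Type} [Fintype κ] [NormedAddCommGroup V] [InnerProductSpace ℝ V]
    (T : (κ → ℝ) ≃ₗ[ℝ] V) {Z : AddSubgroup V} (hZ : ∀ v, v ∈ Z ↔ ∃ m : κ → ℤ, v = T (zc m))
    {r R : ℝ} (hr : 0 ≤ r) (hR : 0 < R) (h : 26 * (Fintype.card κ + 5) * r ≤ R) :
    Ts {v | Nr Z r v} {v | Nr Z R v} := by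
  classical
  set b := (Pi.basisFun ℝ κ).map T with hb
  have hG := posDef_gram_of_linearIndependent b.linearIndependent
  have q : ∀ x, qf (gram ℝ b) x = ‖T x‖ ^ 2 := fun x => by
    have e : ∑ i, x i • b i = T x := by
      conv_rhs => rw [← (Pi.basisFun ℝ κ).sum_repr x, map_sum]
      simp [hb]
    rw [← real_inner_self_eq_norm_sq, ← e, ← star_dotProduct_gram_mulVec]
    rfl
  have k : ∀ {s : ℝ}, 0 ≤ s → ∀ v, v ∈ T.symm ⁻¹' Sm (gram ℝ b)⁻¹ s ↔ Nr Z s v := fun hs v => by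
    simp only [Sm, Set.mem_preimage, Set.mem_ofPred_eq, inv_inv' hG, q, map_sub,
      LinearEquiv.apply_symm_apply, pow_le_pow_iff_left₀ (norm_nonneg _) hs two_ne_zero]
    exact ⟨fun ⟨m, e⟩ => ⟨_, (hZ _).2 ⟨m, rfl⟩, by rwa [norm_sub_rev]⟩, fun ⟨z, hz, e⟩ => by
      obtain ⟨m, rfl⟩ := (hZ z).1 hz
      exact ⟨m, by rwa [norm_sub_rev]⟩⟩
  exact ((ts_gauss hG.inv hr hR h).comap T.symm.toLinearMap.toAddMonoidHom T.symm.injective).mono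
    (fun v hv => (k hr v).2 hv) fun v hv => (k hR.le v).1 hv

end Crest.Agent.N49.Af.Tt
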