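import Crest.Agent.N49.Af.Tst
import Crest.Agent.N49.Lo.Amh

/-! Row 49, Af (helper67): tests for a discrete subgroup that need not have full rank. -/

set_option autoImplicit false

open Finset Matrix Module

namespace Crest.Agent.N49.Af.Tt

open Po

/-- a discrete subgroup is completed to a lattice by very long vectors -/
theorem exists_lat {P : Type} [Fintype P] (Z : AddSubgroup (P → ℝ)) {s : ℝ} (hs : 0 < s)
    (sep : ∀ z ∈ Z, z ≠ 0 → s ≤ ‖z‖) (X : ℝ) : ∃ β : (P → ℝ) ≃ₗ[ℝ] (P → ℝ),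
      (∀ z ∈ Z, ∃ m, β (zc m) = z) ∧ ∀ m, ‖β (zc m)‖ ≤ X → β (zc m) ∈ Z := by
  classical
  let U := Submodule.span ℝ (Z : Set (P → ℝ))
  let c := (finBasis ℝ ((P → ℝ) ⧸ U)).equivFun
  let π := c.toLinearMap ∘ₗ U.mkQ
  have hπ : ∀ x, π x = 0 ↔ x ∈ U := fun x => by simp [π]
  obtain ⟨g, hg⟩ := π.exists_rightInverse_of_surjective
    (LinearMap.range_eq_top.2 (c.surjective.comp U.mkQ_surjective))
  have hg' : ∀ y, π (g y) = y := fun y => LinearMap.congr_fun hg y
  obtain ⟨C, C0, hC⟩ := (LinearMap.toContinuousLinearMap π).bound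
  let t := C * max X s + 1
  have t0 : 0 < t := by positivity
  let L : Submodule ℤ (P → ℝ) :=
    (Z ⊔ ((t • g).toAddMonoidHom.comp La.ci).range).toIntSubmodule
  have hL : ∀ l ∈ L, ‖l‖ ≤ max X s → l ∈ Z := fun l hl h => by
    obtain ⟨z, hz, _, ⟨w, rfl⟩, rfl⟩ := AddSubgroup.mem_sup.1 hl
    change z + t • g (La.ci w) ∈ Z
    change ‖z + t • g (La.ci w)‖ ≤ _ at h
    have a : ‖π (z + t • g (La.ci w))‖ ≤ C * max X s := (hC _).trans (by gcongr)
    rw [map_add, (hπ z).2 (Submodule.subset_span hz), zero_add, map_smul, hg', norm_smul,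
      Real.norm_of_nonneg t0.le] at a
    obtain rfl : w = 0 := funext fun i => by
      have b : |(w i : ℝ)| < 1 := (norm_le_pi_norm (La.ci w) i).trans_lt
        (lt_of_mul_lt_mul_left (a.trans_lt (by simp [t])) t0.le)
      exact Int.abs_lt_one_iff.1 (by exact_mod_cast b)
    simpa using hz
  have : DiscreteTopology L := DiscreteTopology.of_forall_le_norm hs fun x hx => not_lt.1 fun h =>
    (sep x.1 (hL _ x.2 (h.le.trans (le_max_right _ _))) fun e => hx (Subtype.ext e)).not_gt h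
  have : IsZLattice ℝ L := ⟨eq_top_iff.2 fun x _ => by
    rw [← sub_add_cancel x (g (π x))]
    refine add_mem (Submodule.span_mono (fun z hz => AddSubgroup.mem_sup_left hz)
      ((hπ _).1 (by rw [map_sub, hg', sub_self]))) ?_
    rw [pi_eq_sum_univ' (π x), map_sum]
    refine Submodule.sum_mem _ fun i _ => ?_
    rw [map_smul, ← inv_smul_smul₀ t0.ne' (g _)]
    refine Submodule.smul_mem _ _ (Submodule.smul_mem _ _ (Submodule.subset_span
      (AddSubgroup.mem_sup_right ⟨Pi.single i 1, congrArg (t • g ·) ?_⟩)))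
    funext j; simp [Pi.single_apply]⟩
  let b := IsZLattice.basis L
  have e : ∀ m : P → ℤ, (b.ofZLatticeBasis ℝ L).equivFun.symm (zc m) = b.equivFun.symm m :=
    fun m => by simp [zc, Int.cast_smul_eq_zsmul]
  refine ⟨(b.ofZLatticeBasis ℝ L).equivFun.symm, fun z hz =>
    ⟨b.equivFun ⟨z, AddSubgroup.mem_sup_left hz⟩, by rw [e, LinearEquiv.symm_apply_apply]⟩,
      fun m h => hL _ (e m ▸ (b.equivFun.symm m).2) (h.trans (le_max_left _ _))⟩

/-- **tests for a discrete subgroup** of a normed space with coordinates -/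
theorem ts_disc {V : Type*} [NormedAddCommGroup V] [NormedSpace ℝ V] {P : Type} [Fintype P]
    (io : V →ₗ[ℝ] (P → ℝ)) (K : ℝ) (h1 : ∀ v, ‖io v‖ ≤ ‖v‖) (h2 : ∀ v, ‖v‖ ≤ K * ‖io v‖)
    (Z : AddSubgroup V) {sg r R : ℝ} (hsg : 0 < sg) (sep : ∀ z ∈ Z, ‖z‖ < sg → z = 0) (hr : 0 ≤ r)
    (hR : 0 < R) (h : 26 * (Fintype.card P + 5) * (Fintype.card P + 1) * K * r ≤ R) :
    Ts {v | Lo.Nr Z r v} {v | Lo.Nr Z R v} := fun S hS => by
  classical
  rcases le_or_gt K 0 with hK | hK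
  · refine ⟨1, by simp, by simp, ?_⟩
    rw [eq_empty_of_forall_notMem fun v hv => hS v hv ⟨0, zero_mem _, by
      rw [sub_zero]
      exact (h2 v).trans ((mul_nonpos_of_nonpos_of_nonneg hK (norm_nonneg _)).trans hR.le)⟩]
    simp
  obtain ⟨β, b1, b2⟩ := exists_lat (Z.map io.toAddMonoidHom) (div_pos hsg hK) (by
    rintro _ ⟨z, hz, rfl⟩ h0
    refine (div_le_iff₀' hK).2 (le_trans (not_lt.1 fun a => h0 ?_) (h2 z))
    rw [sep z hz a, map_zero]) (R / K + ∑ v ∈ S, ‖io v‖)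
  let A := LinearMap.toMatrix' β.toLinearMap
  have hA : ∀ y, A *ᵥ y = β y := LinearMap.toMatrix'_mulVec _
  have hp : (Aᵀ * A).PosDef := by
    simpa using posDef_conj PosDef.one (B := A) fun x y e => β.injective (by rwa [← hA, ← hA])
  have hq : ∀ m v, qf (Aᵀ * A)⁻¹⁻¹ (zc m - β.symm (io v)) = ∑ i, (β (zc m) - io v) i ^ 2 :=
    fun m v => by rw [inv_inv' hp, qf_mul, hA, map_sub, β.apply_symm_apply]
  have n0 : (0 : ℝ) ≤ Fintype.card P := Nat.cast_nonneg _
  obtain ⟨χ, c1, c2, c3⟩ := (ts_gauss hp.inv (r := (Fintype.card P + 1) * r) (R := R / K)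
    (by positivity) (div_pos hR hK) ((le_div_iff₀ hK).2 (by linarith))).comap
    (β.symm.toLinearMap ∘ₗ io).toAddMonoidHom (fun x y e => by
      have : io (x - y) = 0 := by rw [map_sub, sub_eq_zero]; exact β.symm.injective e
      have a := h2 (x - y)
      rwa [this, norm_zero, mul_zero, norm_le_zero_iff, sub_eq_zero] at a) S
    fun v hv ⟨m, hm⟩ => by
      have a : ‖β (zc m) - io v‖ ≤ R / K := (pi_norm_le_iff_of_nonneg (div_pos hR hK).le).2
        fun i => abs_le_of_sq_le_sq ((single_le_sum (fun j _ => sq_nonneg ((β (zc m) - io v) j))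
          (mem_univ i)).trans ((hq m v).ge.trans hm)) (div_pos hR hK).le
      obtain ⟨z, hz, e⟩ := b2 m ((norm_le_norm_sub_add _ _).trans (add_le_add a
        (single_le_sum (fun w _ => norm_nonneg (io w)) hv)))
      refine hS v hv ⟨z, hz, (h2 _).trans ((le_div_iff₀' hK).1 ?_)⟩
      rwa [map_sub, norm_sub_rev, show io z = β (zc m) from e]
  refine ⟨χ, c1, fun v ⟨z, hz, a⟩ => c2 v ?_, c3⟩
  obtain ⟨m, hm⟩ := b1 _ ⟨z, hz, rfl⟩
  refine ⟨m, (hq m v).trans_le ((sum_le_card_nsmul _ _ (r ^ 2) fun i _ => ?_).trans ?_)⟩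
  · rw [← sq_abs]
    refine pow_le_pow_left₀ (abs_nonneg _) ((norm_le_pi_norm (β (zc m) - io v) i).trans ?_) 2
    rw [hm, norm_sub_rev]
    exact (congrArg norm (map_sub io v z)).ge.trans ((h1 _).trans a)
  · rw [nsmul_eq_mul, card_univ, mul_pow]
    gcongr
    nlinarith

end Crest.Agent.N49.Af.Tt
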