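import Crest.Agent.N49.Fr.One
import Crest.Agent.N49.Po.Lin

/-! Row 49, Af (helper42): tests kill the far clusters of the defects. -/

set_option autoImplicit false

open Finset

namespace Crest.Agent.N49.Af.Tt

variable {α H : Type*} [AddCommGroup H]

/-- tests: characters that move `Z` by at most `1/4` and see a quarter of any finite set off `W` -/
def Ts (Z W : Set H) : Prop := ∀ S : Finset H, (∀ v ∈ S, v ∉ W) → ∃ χ : AddChar H ℂ,
  (∀ x, ‖χ x‖ = 1) ∧ (∀ v ∈ Z, ‖χ v - 1‖ ≤ 1 / 4) ∧ 4 * #{v ∈ S | 1 / 2 < (χ v).re} ≤ 3 * #S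

/-- every defect of a `P`-related pair of `k`-tuples of `A` lies in `T + Z` -/
def Cl {k : ℕ} (P : (Fin k → α) → (Fin k → α) → Prop) (A : Finset α) (φ : α → H) (Z T : Set H) :
    Prop := ∀ u v : Fin k → α, (∀ i, u i ∈ A) → (∀ i, v i ∈ A) → P u v →
  ∃ s ∈ T, ∑ i, φ (u i) - ∑ i, φ (v i) - s ∈ Z

theorem Cl.mono {k : ℕ} {P : (Fin k → α) → (Fin k → α) → Prop} {A A' : Finset α} {φ : α → H}
    {Z T T' : Set H} (h : Cl P A φ Z T) (e : A' ⊆ A) (e' : T ⊆ T') : Cl P A' φ Z T' :=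
  fun u v hu hv p => let ⟨s, a, b⟩ := h u v (fun i => e (hu i)) (fun i => e (hv i)) p; ⟨s, e' a, b⟩

theorem pigeon_w {β : Type*} [DecidableEq β] (A : Finset α) (w : α → ℝ) (T : Finset β)
    (hT : T.Nonempty) (f : α → β) (hf : ∀ a ∈ A, f a ∈ T) :
    ∃ y, ∑ a ∈ A, w a ≤ #T * ∑ a ∈ A with f a = y, w a := by
  obtain ⟨y, -, hy⟩ := exists_max_image T (fun y => ∑ a ∈ A with f a = y, w a) hT
  refine ⟨y, ?_⟩
  rw [← sum_fiberwise_of_maps_to hf, ← nsmul_eq_mul]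
  exact sum_le_card_nsmul _ _ _ hy

theorem re_gt {z : ℂ} (h : ‖z‖ = 1) (h' : ‖z - 1‖ < 1) : 1 / 2 < z.re := by
  have h5 : ‖z - 1‖ ^ 2 = 2 - 2 * z.re := by
    have : ‖z‖ ^ 2 = 1 := by rw [h]; norm_num
    rw [Complex.sq_norm, Complex.normSq_apply] at this ⊢
    simp only [Complex.sub_re, Complex.sub_im, Complex.one_re, Complex.one_im]
    linarith
  nlinarith [norm_nonneg (z - 1)]

/-- a cell on which a unimodular function moves by at most `1/(4k+4)` -/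
theorem cell (k : ℕ) (A : Finset α) (w : α → ℝ) (hw : ∀ a, 0 ≤ w a) (g : α → ℂ)
    (hg : ∀ a, ‖g a‖ = 1) : ∃ A' ⊆ A, ∑ a ∈ A, w a ≤ 2 ^ (2 * k + 10) * ∑ a ∈ A', w a ∧
      ∀ a ∈ A', ∀ b ∈ A', ‖g a - g b‖ ≤ 1 / (4 * k + 4) := by
  set m : ℝ := 8 * k + 8 with hm
  have m0 : 0 < m := by positivity
  set I : Finset ℤ := Icc (-(8 * k + 8 : ℤ)) (8 * k + 8) with hI
  have hI' : ∀ r : ℝ, |r| ≤ 1 → ⌊r * m⌋ ∈ I := fun r hr => by
    rw [abs_le] at hr
    refine mem_Icc.2 ⟨Int.le_floor.2 ?_, Int.floor_le_iff.2 ?_⟩ <;> push_cast <;> nlinarith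
  obtain ⟨y, hy⟩ := pigeon_w A w (I ×ˢ I) ⟨(0, 0), by simp only [hI, mem_product, mem_Icc]; omega⟩
    (fun a => (⌊(g a).re * m⌋, ⌊(g a).im * m⌋)) fun a _ => mem_product.2
      ⟨hI' _ ((Complex.abs_re_le_norm _).trans (hg _).le),
        hI' _ ((Complex.abs_im_le_norm _).trans (hg _).le)⟩
  refine ⟨_, filter_subset _ _, hy.trans (mul_le_mul_of_nonneg_right ?_
    (sum_nonneg fun a _ => hw a)), fun a ha b hb => ?_⟩
  · have : #I ≤ 2 ^ (k + 5) := by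
      have h1 : k < 2 ^ k := Nat.lt_two_pow_self
      rw [hI, Int.card_Icc, pow_add]; omega
    rw [card_product, show 2 * k + 10 = (k + 5) + (k + 5) by ring, pow_add]
    exact_mod_cast Nat.mul_le_mul this this
  · have fl : ∀ r s : ℝ, ⌊r * m⌋ = ⌊s * m⌋ → |r - s| ≤ 1 / m := fun r s h => by
      have := Int.abs_sub_lt_one_of_floor_eq_floor h
      rw [← sub_mul, abs_mul, abs_of_pos m0] at this
      rw [le_div_iff₀ m0]; exact this.le
    have e := Prod.ext_iff.1 ((mem_filter.1 ha).2.trans (mem_filter.1 hb).2.symm)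
    have e2 := Complex.norm_le_abs_re_add_abs_im (g a - g b)
    rw [Complex.sub_re, Complex.sub_im] at e2
    have := fl _ _ e.1
    have := fl _ _ e.2
    rw [show 1 / (4 * k + 4 : ℝ) = 1 / m + 1 / m by rw [hm]; field_simp; ring]; linarith

section
variable {k : ℕ} {P : (Fin k → α) → (Fin k → α) → Prop} {w : α → ℝ} {φ : α → H} {Z W W₀ : Set H}

theorem step (hw : ∀ a, 0 ≤ w a) (hT : Ts Z W) (A : Finset α) (S : Finset H) (hS : ∀ v ∈ S, v ∉ W)
    (h : Cl P A φ Z (W₀ ∪ S)) : ∃ A' ⊆ A, ∃ S' ⊆ S, Cl P A' φ Z (W₀ ∪ S') ∧ 4 * #S' ≤ 3 * #S ∧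
      ∑ a ∈ A, w a ≤ 2 ^ (2 * k + 10) * ∑ a ∈ A', w a := by
  obtain ⟨χ, hχ, hZ, h3⟩ := hT S hS
  obtain ⟨A', a, c, d⟩ := cell k A w hw (fun a => χ (φ a)) fun _ => hχ _
  refine ⟨A', a, _, filter_subset _ S, fun u v hu hv p => ?_, h3, c⟩
  obtain ⟨s, hs, e⟩ := h u v (fun i => a (hu i)) (fun i => a (hv i)) p
  refine ⟨s, hs.imp_right fun hs => mem_coe.2 (mem_filter.2 ⟨hs, re_gt (hχ _) ?_⟩), e⟩
  have sub : ∀ x y, ‖χ (x - y) - 1‖ = ‖χ x - χ y‖ := fun x y => by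
    rw [show χ x - χ y = χ y * (χ (x - y) - 1) by
      rw [mul_sub, ← AddChar.map_add_eq_mul, add_sub_cancel, mul_one], norm_mul, hχ, one_mul]
  have h1 := (Fr.chr_sum hχ univ fun i => φ (u i) - φ (v i)).trans
    (sum_le_card_nsmul _ _ _ fun i _ => (sub _ _).trans_le (d _ (hu i) _ (hv i)))
  have h2 := hZ _ e
  rw [sub] at h2
  rw [sum_sub_distrib, card_univ, Fintype.card_fin, nsmul_eq_mul] at h1
  have h3 : (k : ℝ) * (1 / (4 * k + 4)) ≤ 1 / 4 := by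
    rw [mul_one_div, div_le_div_iff₀ (by positivity) (by positivity)]; linarith
  have h4 := norm_sub_le_norm_sub_add_norm_sub (χ s) (χ (∑ i, φ (u i) - ∑ i, φ (v i))) 1
  rw [norm_sub_rev] at h2
  linarith

theorem iter (hw : ∀ a, 0 ≤ w a) (hT : Ts Z W) (j : ℕ) : ∀ (A : Finset α) (S : Finset H),
    (∀ v ∈ S, v ∉ W) → Cl P A φ Z (W₀ ∪ S) → #S < 2 ^ j → ∃ A' ⊆ A, Cl P A' φ Z W₀ ∧
      ∑ a ∈ A, w a ≤ (2 ^ j) ^ (6 * k + 30) * ∑ a ∈ A', w a := by
  induction j with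
  | zero =>
    intro A S _ h hS
    obtain rfl : S = ∅ := card_eq_zero.1 (by omega)
    exact ⟨A, Subset.rfl, by simpa using h, by simp⟩
  | succ j ih =>
    intro A S h0 h hS
    obtain ⟨A1, a1, S1, s1, h1, c1, d1⟩ := step hw hT A S h0 h
    obtain ⟨A2, a2, S2, s2, h2, c2, d2⟩ := step hw hT A1 S1 (fun v e => h0 v (s1 e)) h1
    obtain ⟨A3, a3, S3, s3, h3, c3, d3⟩ := step hw hT A2 S2 (fun v e => h0 v (s1 (s2 e))) h2
    obtain ⟨A4, a4, h4, d4⟩ := ih A3 S3 (fun v e => h0 v (s1 (s2 (s3 e)))) h3 (by omega)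
    have p : (0 : ℝ) ≤ 2 ^ (2 * k + 10) := by positivity
    refine ⟨A4, a4.trans (a3.trans (a2.trans a1)), h4, d1.trans ((mul_le_mul_of_nonneg_left
      (d2.trans (mul_le_mul_of_nonneg_left (d3.trans (mul_le_mul_of_nonneg_left d4 p)) p))
        p).trans_eq (by ring))⟩

/-- **tests**: finitely many clusters of defects, then only the clusters centred in `W` -/
theorem tst (hw : ∀ a, 0 ≤ w a) (hT : Ts Z W) (A : Finset α) (S : Finset H) (h : Cl P A φ Z S) :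
    ∃ A' ⊆ A, ∑ a ∈ A, w a ≤ (2 * #S + 1) ^ (6 * k + 30) * ∑ a ∈ A', w a ∧ Cl P A' φ Z W := by
  classical
  obtain ⟨A', a, c, d⟩ := iter (P := P) (φ := φ) (W₀ := W) hw hT (Nat.size #S) A {v ∈ S | v ∉ W}
    (fun v hv => (mem_filter.1 hv).2) (h.mono Subset.rfl fun v hv => by
      by_cases e : v ∈ W
      · exact Or.inl e
      · exact Or.inr (mem_coe.2 (mem_filter.2 ⟨hv, e⟩)))
    ((card_filter_le _ _).trans_lt (Nat.lt_size_self _))
  refine ⟨A', a, d.trans (mul_le_mul_of_nonneg_right (pow_le_pow_left₀ (by positivity) ?_ _)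
    (sum_nonneg fun a _ => hw a)), c⟩
  rcases h : Nat.size #S with _ | i
  · simp
  · have : (2 : ℝ) ^ i ≤ #S := by exact_mod_cast Nat.lt_size.1 (by omega)
    rw [pow_succ]; linarith

/-- **tests**, exact form: afterwards every defect lies in `W` -/
theorem tst' {Z' : Set H} (hw : ∀ a, 0 ≤ w a) (hT : Ts Z' W) (hZ : ∀ x ∈ Z, ∀ y ∈ Z, x - y ∈ Z')
    (A : Finset α) (S : Finset H) (h : Cl P A φ Z S) :
    ∃ A' ⊆ A, ∑ a ∈ A, w a ≤ (2 * #S + 1) ^ (6 * k + 30) * ∑ a ∈ A', w a ∧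
      ∀ u v : Fin k → α, (∀ i, u i ∈ A') → (∀ i, v i ∈ A') → P u v →
        ∑ i, φ (u i) - ∑ i, φ (v i) ∈ W := by
  classical
  have ex : ∀ s : H, ∃ t, (∃ x ∉ W, x - s ∈ Z) → t ∉ W ∧ t - s ∈ Z := fun s => by
    by_cases e : ∃ x ∉ W, x - s ∈ Z
    · exact let ⟨x, hx⟩ := e; ⟨x, fun _ => hx⟩
    · exact ⟨0, fun e' => absurd e' e⟩
  choose g hg using ex
  obtain ⟨A', a, c, d⟩ := iter (P := fun u v => P u v ∧ ∑ i, φ (u i) - ∑ i, φ (v i) ∉ W) (φ := φ)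
    (W₀ := ∅) hw hT (Nat.size #S) A (({s ∈ S | ∃ x ∉ W, x - s ∈ Z}).image g)
    (fun v hv => by obtain ⟨s, hs, rfl⟩ := mem_image.1 hv; exact (hg s (mem_filter.1 hs).2).1)
    (fun u v hu hv p => by
      obtain ⟨s, hs, e⟩ := h u v hu hv p.1
      refine ⟨g s, Or.inr (mem_coe.2 (mem_image_of_mem _ (mem_filter.2 ⟨hs, _, p.2, e⟩))), ?_⟩
      simpa using hZ _ e _ (hg s ⟨_, p.2, e⟩).2)
    (card_image_le.trans_lt ((card_filter_le _ _).trans_lt (Nat.lt_size_self _)))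
  refine ⟨A', a, d.trans (mul_le_mul_of_nonneg_right (pow_le_pow_left₀ (by positivity) ?_ _)
    (sum_nonneg fun a _ => hw a)), fun u v hu hv p => by_contra fun e => ?_⟩
  · rcases h : Nat.size #S with _ | i
    · simp
    · have : (2 : ℝ) ^ i ≤ #S := by exact_mod_cast Nat.lt_size.1 (by omega)
      rw [pow_succ]; linarith
  · obtain ⟨s, hs, -⟩ := c u v hu hv ⟨p, e⟩
    exact hs

end

theorem Ts.comap {H' : Type*} [AddCommGroup H'] [DecidableEq H] {Z W : Set H} (h : Ts Z W)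
    (f : H' →+ H) (hf : Function.Injective f) : Ts (f ⁻¹' Z) (f ⁻¹' W) := fun S hS => by
  obtain ⟨χ, a, b, c⟩ := h (S.image f) fun v hv => by
    obtain ⟨x, hx, rfl⟩ := mem_image.1 hv; exact hS x hx
  refine ⟨χ.compAddMonoidHom f, fun x => a _, fun v hv => b _ hv, ?_⟩
  rwa [filter_image, card_image_of_injective _ hf, card_image_of_injective _ hf] at c

open Po Matrix in
/-- the characters of the Gaussian lattice `(ℤ^d, M)` of dual size at most `r` -/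
def Sm {d : Type} [Fintype d] [DecidableEq d] (M : Matrix d d ℝ) (r : ℝ) : Set (d → ℝ) :=
  {ξ | ∃ m : d → ℤ, qf M⁻¹ (zc m - ξ) ≤ r ^ 2}

open Po Matrix in
/-- **Gaussian tests** -/
theorem ts_gauss {d : Type} [Fintype d] [DecidableEq d] {M : Matrix d d ℝ} (hM : M.PosDef)
    {r R : ℝ} (hr : 0 ≤ r) (hR : 0 < R) (h : 26 * (Fintype.card d + 5) * r ≤ R) :
    Ts (Sm M r) (Sm M R) := fun S hS => by
  classical
  set R₀ : ℝ := Fintype.card d + 5 with hR₀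
  have r0 : 0 < R₀ := by positivity
  have hb : bz d R₀ ≤ 1 / 32 := (bz_le (L := 5) le_rfl (by norm_num)).trans (by
    rw [Real.exp_neg, ← one_div]
    refine one_div_le_one_div_of_le (by norm_num) ?_
    have := pow_le_pow_left₀ zero_le_two (show (2 : ℝ) ≤ Real.exp 1 by
      linarith [Real.add_one_le_exp 1]) 5
    rw [← Real.exp_nat_mul] at this
    norm_num at this ⊢; exact this)
  have t0 : 0 < R ^ 2 / R₀ := by positivity
  have hN := hM.smul t0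
  set N := (R ^ 2 / R₀) • M with hNd
  set Y := {y ∈ (finite_ell hN 0 R₀).toFinset | True} with hY
  have mY : ∀ y, y ∈ Y ↔ qf N (zc y - 0) ≤ R₀ := fun y => by simp [hY]
  let χ : (d → ℤ) → AddChar (d → ℝ) ℂ := fun y =>
    { toFun := fun ξ => ee (ξ ⬝ᵥ zc y)
      map_zero_eq_one' := by rw [zero_dotProduct, ee_zero]
      map_add_eq_mul' := fun a b => by rw [add_dotProduct, ee_add] }
  have th0 := th_pos hN 0
  have k1 : ∀ v ∈ S, ∑ y ∈ Y, gs N (zc y - 0) * (χ y v).re ≤ 1 / 16 * th N 0 := fun v hv => by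
    have a1 : ‖thc N 0 v‖ ≤ bz d R₀ * th N 0 := not_lt.1 fun a => by
      obtain ⟨m, hm⟩ := exists_dual hN a
      refine hS v hv ⟨m, ?_⟩
      rw [hNd, inv_smul' hM t0.ne', qf_smul, inv_mul_lt_iff₀ t0, div_mul_cancel₀ _ r0.ne'] at hm
      exact hm.le
    have a2 := trunc hN 0 (R := R₀) (S := Y) (fun n a => (mY n).2 a.le)
      (f := fun n => ee (v ⬝ᵥ zc n)) fun _ => (norm_ee _).le
    have a3 := (Complex.re_le_norm _).trans ((norm_le_norm_add_norm_sub' _ _).trans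
      (add_le_add a1 ((norm_sub_rev _ _).trans_le a2)))
    simp only [Complex.re_sum, Complex.re_ofReal_mul] at a3
    exact a3.trans (by nlinarith)
  have k2 : 31 / 32 * th N 0 ≤ ∑ y ∈ Y, gs N (zc y - 0) := by
    have a2 := trunc hN 0 (R := R₀) (S := Y) (fun n a => (mY n).2 a.le) (f := fun _ => 1)
      fun _ => by simp
    simp only [mul_one, ← Complex.ofReal_tsum, ← Complex.ofReal_sum, ← Complex.ofReal_sub,
      Complex.norm_real] at a2
    have := (le_abs_self _).trans a2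
    change th N 0 - _ ≤ _ at this
    nlinarith
  obtain ⟨y, hy, c⟩ : ∃ y ∈ Y, 4 * #{v ∈ S | 1 / 2 < (χ y v).re} ≤ 3 * #S := by
    by_contra! a
    have b1 : ∀ y ∈ Y, (#S : ℝ) / 8 ≤ ∑ v ∈ S, (χ y v).re := fun y hy => by
      have e1 : ∑ v ∈ S, ((if 1 / 2 < (χ y v).re then 3 / 2 else 0) - 1 : ℝ) ≤
          ∑ v ∈ S, (χ y v).re := sum_le_sum fun v _ => by
        have := (abs_le.1 ((Complex.abs_re_le_norm (χ y v)).trans (norm_ee _).le)).1
        split_ifs <;> linarith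
      rw [sum_sub_distrib, ← sum_filter, sum_const, sum_const, nsmul_eq_mul, nsmul_eq_mul] at e1
      have : (3 * #S : ℝ) ≤ 4 * #{v ∈ S | 1 / 2 < (χ y v).re} := by exact_mod_cast (a y hy).le
      linarith
    have b2 := sum_le_sum fun y hy => mul_le_mul_of_nonneg_left (b1 y hy) (gs_pos N (zc y - 0)).le
    have b3 := sum_le_card_nsmul _ _ _ k1
    simp only [mul_sum] at b2
    rw [sum_comm, ← sum_mul] at b2
    rw [nsmul_eq_mul] at b3
    have b4 : (0 : ℝ) < #S := by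
      have := a 0 ((mY 0).2 (by simpa [zc_zero, qf] using r0.le))
      have := card_filter_le S fun v => 1 / 2 < (χ 0 v).re
      exact Nat.cast_pos.2 (by omega)
    nlinarith [mul_le_mul_of_nonneg_right k2 b4.le, mul_pos th0 b4]
  refine ⟨χ y, fun _ => norm_ee _, fun v ⟨m, hm⟩ => ?_, c⟩
  have e1 : χ y v = ee (-((zc m - v) ⬝ᵥ zc y)) := by
    change ee _ = _
    rw [← mul_one (ee (-_)), ← ee_zc m y, ← ee_add, sub_dotProduct]
    congr 1; ring
  have e2 := dual_sq_le hM (zc y) (zc m - v)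
  have e3 := (mY y).1 hy
  rw [sub_zero, hNd, qf_smul, div_mul_eq_mul_div, div_le_iff₀ r0] at e3
  set x := (zc m - v) ⬝ᵥ zc y
  have e4 : |x| ≤ 1 / 26 := by
    refine abs_le_of_sq_le_sq' ?_ (by norm_num) |> abs_le.2
    refine le_of_mul_le_mul_left ?_ (pow_pos hR 2)
    have q0 := qf_nonneg hM (zc y)
    calc R ^ 2 * x ^ 2 ≤ R ^ 2 * (r ^ 2 * qf M (zc y)) := by
          gcongr; exact e2.trans (mul_le_mul_of_nonneg_right hm q0)
      _ = r ^ 2 * (R ^ 2 * qf M (zc y)) := by ring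
      _ ≤ r ^ 2 * (R₀ * R₀) := by gcongr
      _ = (26 * R₀ * r) ^ 2 * (1 / 26) ^ 2 := by ring
      _ ≤ _ := by gcongr
  rw [e1, ee, show 2 * (Real.pi : ℂ) * Complex.I * ((-x : ℝ) : ℂ) =
    Complex.I * ((2 * Real.pi * -x : ℝ) : ℂ) by push_cast; ring]
  refine Real.norm_exp_I_mul_ofReal_sub_one_le.trans ?_
  rw [Real.norm_eq_abs, abs_mul, abs_neg, abs_of_pos Real.two_pi_pos]
  nlinarith [Real.pi_lt_d2, abs_nonneg x]

end Crest.Agent.N49.Af.Tt
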